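/-
P217, block RIGID: digit sums and binomial coefficients modulo `p`.
-/
import Mathlib

namespace Vale.Agent.P217.Rigid

/-- Sum of the base `p` digits. -/
def dsum (p n : ℕ) : ℕ := (p.digits n).sum

variable {p : ℕ} [hp : Fact p.Prime]

lemma dsum_zero : dsum p 0 = 0 := by simp [dsum]

lemma dsum_step {n : ℕ} (hn : 0 < n) : dsum p n = n % p + dsum p (n / p) := by
  rw [dsum, dsum, Nat.digits_def' hp.out.one_lt hn, List.sum_cons]

lemma eq_zero_of_dsum {n : ℕ} (h : dsum p n = 0) : n = 0 := by
  induction n using Nat.strong_induction_on with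
  | h n ih =>
    by_contra hn
    have hn' : 0 < n := Nat.pos_of_ne_zero hn
    rw [dsum_step hn'] at h
    have h1 := ih (n / p) (Nat.div_lt_self hn' hp.out.one_lt) (by omega)
    have h2 := Nat.div_add_mod n p
    rw [h1] at h2
    omega

lemma exists_pow_of_dsum {n : ℕ} (h : dsum p n = 1) : ∃ b, n = p ^ b := by
  induction n using Nat.strong_induction_on with
  | h n ih =>
    have hn : 0 < n := Nat.pos_of_ne_zero fun h0 => by simp [h0, dsum_zero] at h
    rw [dsum_step hn] at h
    have h2 := Nat.div_add_mod n p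
    rcases Nat.eq_zero_or_pos (n % p) with h0 | h0
    · obtain ⟨b, hb⟩ := ih (n / p) (Nat.div_lt_self hn hp.out.one_lt) (by omega)
      exact ⟨b + 1, by rw [h0, hb] at h2; rw [pow_succ']; omega⟩
    · have h1 := eq_zero_of_dsum (p := p) (n := n / p) (by omega)
      refine ⟨0, ?_⟩
      rw [h1] at h2
      rw [h1, dsum_zero] at h
      simp
      omega

lemma dsum_add_of_choose {n k : ℕ} (h : ¬ p ∣ (n + k).choose k) :
    dsum p n + dsum p k ≤ dsum p (n + k) := by
  have h1 := sub_one_mul_padicValNat_choose_eq_sub_sum_digits' (p := p) (k := k) (n := n)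
  rw [padicValNat.eq_zero_of_not_dvd h, mul_zero] at h1
  simp only [dsum]
  omega

lemma dsum_pow_mul (b n : ℕ) : dsum p (p ^ b * n) = dsum p n := by
  rcases Nat.eq_zero_or_pos n with h | h
  · simp [h]
  · simp [dsum, Nat.digits_base_pow_mul hp.out.one_lt h]

lemma dsum_pred {q : ℕ} (hq : ¬ p ∣ q) : dsum p q = dsum p (q - 1) + 1 := by
  have hq0 : 0 < q := Nat.pos_of_ne_zero fun h => hq (h ▸ dvd_zero p)
  have hmod : q % p ≠ 0 := fun h => hq (Nat.dvd_of_mod_eq_zero h)
  rw [dsum_step hq0]
  rcases Nat.eq_zero_or_pos (q - 1) with h | h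
  · have h1 : q = 1 := by omega
    subst h1
    simp [dsum_zero, Nat.mod_eq_of_lt hp.out.one_lt, Nat.div_eq_of_lt hp.out.one_lt]
  · rw [dsum_step h]
    have h2 : (q - 1) % p = q % p - 1 ∧ (q - 1) / p = q / p := by
      have h3 := Nat.div_add_mod q p
      have h4 := Nat.mod_lt q hp.out.pos
      constructor
      · rw [show q - 1 = (q % p - 1) + p * (q / p) by omega, Nat.add_mul_mod_self_left,
          Nat.mod_eq_of_lt (by omega)]
      · rw [show q - 1 = (q % p - 1) + p * (q / p) by omega, Nat.add_mul_div_left _ _ hp.out.pos,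
          Nat.div_eq_of_lt (show q % p - 1 < p by omega)]
        omega
    rw [h2.1, h2.2]
    omega

lemma not_dvd_choose_pow_mul {b q : ℕ} (hq : ¬ p ∣ q) : ¬ p ∣ (p ^ b * q).choose (p ^ b) := by
  have h := Choose.choose_pow_mul_pow_mul_modEq_choose_nat (p := p) (k := b) (a := q) (b := 1)
  rw [mul_one, Nat.choose_one_right] at h
  exact fun hd => hq ((Nat.ModEq.dvd_iff h dvd_rfl).1 hd)

end Vale.Agent.P217.Rigid
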