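/-
P217, block RIGID: subspaces stable under a semilinear map are spanned by fixed vectors.
-/
import Mathlib

namespace Vale.Agent.P217.Rigid

variable {K S : Type*} [Field K] [Fintype S] (φ : K →+* K)

/-- A subspace of `S → K` stable under `φ` is spanned by its `φ`-fixed vectors. -/
theorem mem_span_fixed {V : Submodule K (S → K)} (hV : ∀ x ∈ V, (fun s => φ (x s)) ∈ V)
    {x : S → K} (hx : x ∈ V) :
    x ∈ Submodule.span K {g : S → K | g ∈ V ∧ ∀ s, φ (g s) = g s} := by
  classical
  have key : ∀ n : ℕ, ∀ x ∈ V, (Finset.univ.filter fun s => x s ≠ 0).card = n →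
      x ∈ Submodule.span K
        {g : S → K | g ∈ V ∧ (∀ s, φ (g s) = g s) ∧ ∀ s, g s ≠ 0 → x s ≠ 0} := by
    intro n
    induction n using Nat.strong_induction_on with
    | h n ih =>
      intro x hx hn
      by_cases h0 : x = 0
      · rw [h0]; exact zero_mem _
      obtain ⟨s0, hs0⟩ := Function.ne_iff.1 h0
      simp only [Pi.zero_apply] at hs0
      -- a nonzero fixed vector with support inside that of `x`
      obtain ⟨g, ⟨hgV, hgfix, hgsupp⟩, hg0⟩ :
          ∃ g, (g ∈ V ∧ (∀ s, φ (g s) = g s) ∧ ∀ s, g s ≠ 0 → x s ≠ 0) ∧ g ≠ 0 := by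
        set y : S → K := (x s0)⁻¹ • x with hy
        have hyV : y ∈ V := V.smul_mem _ hx
        have hy0 : y s0 = 1 := by simp [hy, hs0]
        have hys : ∀ s, y s ≠ 0 → x s ≠ 0 := fun s h h' => h (by simp [hy, h'])
        set z : S → K := (fun s => φ (y s)) - y with hz
        by_cases hz0 : z = 0
        · refine ⟨y, ⟨hyV, fun s => ?_, hys⟩, fun h => ?_⟩
          · have := congrFun hz0 s
            simpa [hz, sub_eq_zero] using this
          · simp [h] at hy0
        · have hzs : ∀ s, z s ≠ 0 → x s ≠ 0 := fun s h => hys s fun h' => h (by simp [hz, h'])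
          have hlt : (Finset.univ.filter fun s => z s ≠ 0).card < n := by
            rw [← hn]
            refine Finset.card_lt_card (Finset.ssubset_iff_of_subset (fun s hs => ?_) |>.2
              ⟨s0, by simp [hs0], by simp [hz, hy0]⟩)
            simp only [Finset.mem_filter, Finset.mem_univ, true_and] at hs ⊢
            exact hzs s hs
          have hmem := ih _ hlt z (V.sub_mem (hV y hyV) hyV) rfl
          by_contra hno
          refine hz0 ((Submodule.mem_bot K).1 (?_ : z ∈ (⊥ : Submodule K (S → K))))
          refine Submodule.span_le.2 ?_ hmem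
          intro g hg
          by_contra hg0
          exact hno ⟨g, ⟨hg.1, hg.2.1, fun s h => hzs s (hg.2.2 s h)⟩, by simpa using hg0⟩
      obtain ⟨t, ht⟩ := Function.ne_iff.1 hg0
      simp only [Pi.zero_apply] at ht
      set x' : S → K := x - (x t / g t) • g with hx'
      have hsub : ∀ s, x' s ≠ 0 → x s ≠ 0 := by
        intro s h h'
        have : g s = 0 := by
          by_contra hgs
          exact hgsupp s hgs h'
        simp [hx', h', this] at h
      have hlt : (Finset.univ.filter fun s => x' s ≠ 0).card < n := by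
        rw [← hn]
        refine Finset.card_lt_card (Finset.ssubset_iff_of_subset (fun s hs => ?_) |>.2
          ⟨t, by simp [hgsupp t ht], by simp [hx', ht]⟩)
        simp only [Finset.mem_filter, Finset.mem_univ, true_and] at hs ⊢
        exact hsub s hs
      have hmem := ih _ hlt x' (V.sub_mem hx (V.smul_mem _ hgV)) rfl
      have h1 : x' ∈ Submodule.span K
          {g : S → K | g ∈ V ∧ (∀ s, φ (g s) = g s) ∧ ∀ s, g s ≠ 0 → x s ≠ 0} := by
        refine Submodule.span_mono ?_ hmem
        exact fun u hu => ⟨hu.1, hu.2.1, fun s hs => hsub s (hu.2.2 s hs)⟩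
      have h2 : g ∈ Submodule.span K
          {g : S → K | g ∈ V ∧ (∀ s, φ (g s) = g s) ∧ ∀ s, g s ≠ 0 → x s ≠ 0} := by
        apply Submodule.subset_span
        exact ⟨hgV, hgfix, hgsupp⟩
      have h3 := Submodule.add_mem _ h1 (Submodule.smul_mem _ (x t / g t) h2)
      rwa [hx', sub_add_cancel] at h3
  refine Submodule.span_mono ?_ (key _ x hx rfl)
  exact fun g hg => ⟨hg.1, hg.2.1⟩

end Vale.Agent.P217.Rigid
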