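/-
P217, block RIGID: evaluation of series with coefficients fixed by a power of Frobenius.
-/
import Vale.Agent.P217.Eval
import Vale.Agent.P217.Continuity

namespace Vale.Agent.P217.Rigid

open MvPowerSeries Filter Topology

/-- Weight of an exponent vector. -/
noncomputable def gw {σ : Type*} [Fintype σ] (v : σ → ℝ) (d : σ →₀ ℕ) : ℝ :=
  ∑ i, (d i : ℝ) * v i

section Weight

variable {σ : Type*} [Fintype σ] {v : σ → ℝ}

lemma gw_add (v : σ → ℝ) (d e : σ →₀ ℕ) : gw v (d + e) = gw v d + gw v e := by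
  simp [gw, add_mul, Finset.sum_add_distrib]

lemma degree_le_gw (hv : ∀ i, 1 ≤ v i) (d : σ →₀ ℕ) : (d.degree : ℝ) ≤ gw v d := by
  rw [Finsupp.degree_eq_sum, Nat.cast_sum]
  exact Finset.sum_le_sum fun i _ => le_mul_of_one_le_right (Nat.cast_nonneg _) (hv i)

lemma gw_nonneg (hv : ∀ i, 1 ≤ v i) (d : σ →₀ ℕ) : 0 ≤ gw v d :=
  (Nat.cast_nonneg _).trans (degree_le_gw hv d)

lemma finite_gw_le (hv : ∀ i, 1 ≤ v i) (D : ℝ) : {d : σ →₀ ℕ | gw v d ≤ D}.Finite := by
  classical
  refine (Set.finite_Iic (Finsupp.equivFunOnFinite.symm fun _ : σ => Nat.ceil D)).subset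
    fun d hd i => ?_
  have h1 : (d.degree : ℝ) ≤ (Nat.ceil D : ℝ) :=
    (degree_le_gw hv d).trans (hd.trans (Nat.le_ceil D))
  simpa using (Finsupp.le_degree i d).trans (Nat.cast_le.1 h1)

/-- Exponents of weight `< D`. -/
noncomputable def low (hv : ∀ i, 1 ≤ v i) (D : ℝ) : Finset (σ →₀ ℕ) :=
  ((finite_gw_le hv D).subset fun _ (h : gw v _ < D) => le_of_lt h :
    {d : σ →₀ ℕ | gw v d < D}.Finite).toFinset

@[simp]
lemma mem_low {hv : ∀ i, 1 ≤ v i} {D : ℝ} {d : σ →₀ ℕ} : d ∈ low hv D ↔ gw v d < D := by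
  simp [low]

lemma gw_one (d : σ →₀ ℕ) : gw (fun _ : σ => (1 : ℝ)) d = d.degree := by
  simp [gw, Finsupp.degree_eq_sum]

lemma gw_single (v : σ → ℝ) (i : σ) (k : ℕ) : gw v (Finsupp.single i k) = k * v i := by
  classical
  simp [gw, Finsupp.single_apply]

end Weight

variable {K : Type*} [NormedField K]

section Small

variable {σ : Type*} [Fintype σ] {v : σ → ℝ} {τ : ℝ} {a : σ → K}

lemma norm_prod_pow_le (hτ : 0 < τ) (ha : ∀ i, ‖a i‖ ≤ τ ^ v i) (d : σ →₀ ℕ) :
    ‖d.prod fun i e => a i ^ e‖ ≤ τ ^ gw v d := by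
  classical
  rw [Finsupp.prod_fintype _ _ (fun i => pow_zero _), norm_prod, gw, Real.rpow_sum_of_pos hτ]
  refine Finset.prod_le_prod (fun i _ => norm_nonneg _) fun i _ => ?_
  rw [norm_pow, mul_comm, Real.rpow_mul hτ.le, Real.rpow_natCast]
  exact pow_le_pow_left₀ (norm_nonneg _) (ha i) _

lemma term_le {f : MvPowerSeries σ K} (hf : IntegralSeries f) (hτ : 0 < τ)
    (ha : ∀ i, ‖a i‖ ≤ τ ^ v i) (d : σ →₀ ℕ) :
    ‖coeff d f * d.prod fun i e => a i ^ e‖ ≤ τ ^ gw v d := by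
  rw [norm_mul]
  exact (mul_le_of_le_one_left (norm_nonneg _) (hf d)).trans (norm_prod_pow_le hτ ha d)

variable [CompleteSpace K] [IsUltrametricDist K]

lemma summable_term {f : MvPowerSeries σ K} (hf : IntegralSeries f) (hv : ∀ i, 1 ≤ v i)
    (hτ : 0 < τ) (hτ1 : τ < 1) (ha : ∀ i, ‖a i‖ ≤ τ ^ v i) :
    Summable fun d : σ →₀ ℕ => coeff d f * d.prod fun i e => a i ^ e := by
  refine NonarchimedeanAddGroup.summable_of_tendsto_cofinite_zero ?_
  rw [Metric.tendsto_nhds]
  intro ε hε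
  rw [eventually_cofinite]
  obtain ⟨k, hk⟩ := exists_pow_lt_of_lt_one hε hτ1
  refine (finite_gw_le hv k).subset fun d hd => ?_
  by_contra hlt
  simp only [Set.mem_setOf_eq, not_le] at hlt
  refine hd ?_
  rw [dist_zero_right]
  calc _ ≤ τ ^ gw v d := term_le hf hτ ha d
    _ ≤ τ ^ (k : ℝ) := Real.rpow_le_rpow_of_exponent_ge hτ hτ1.le hlt.le
    _ < ε := by rwa [Real.rpow_natCast]

/-- If all terms outside a finite set are at most `B`, so is the error of the finite sum. -/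
lemma norm_ev_sub_le {f : MvPowerSeries σ K} (hf : IntegralSeries f) (hv : ∀ i, 1 ≤ v i)
    (hτ : 0 < τ) (hτ1 : τ < 1) (ha : ∀ i, ‖a i‖ ≤ τ ^ v i) (s : Finset (σ →₀ ℕ)) {B : ℝ}
    (hB : 0 ≤ B) (hs : ∀ d ∉ s, ‖coeff d f * d.prod fun i e => a i ^ e‖ ≤ B) :
    ‖ev f a - ∑ d ∈ s, coeff d f * d.prod fun i e => a i ^ e‖ ≤ B := by
  classical
  have h := (summable_term hf hv hτ hτ1 ha).sum_add_tsum_compl (s := s)
  rw [ev, ← h, add_sub_cancel_left]
  exact IsUltrametricDist.norm_tsum_le_of_forall_le_of_nonneg hB fun d => hs d.1 d.2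

lemma norm_ev_sub_low_le {f : MvPowerSeries σ K} (hf : IntegralSeries f) (hv : ∀ i, 1 ≤ v i)
    (hτ : 0 < τ) (hτ1 : τ < 1) (ha : ∀ i, ‖a i‖ ≤ τ ^ v i) (D : ℝ) :
    ‖ev f a - ∑ d ∈ low hv D, coeff d f * d.prod fun i e => a i ^ e‖ ≤ τ ^ D := by
  refine norm_ev_sub_le hf hv hτ hτ1 ha _ (Real.rpow_nonneg hτ.le _) fun d hd => ?_
  rw [mem_low, not_lt] at hd
  exact (term_le hf hτ ha d).trans (Real.rpow_le_rpow_of_exponent_ge hτ hτ1.le hd)

/-- A series without terms of weight `< D` has a small value. -/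
lemma norm_ev_le {f : MvPowerSeries σ K} (hf : IntegralSeries f) (hv : ∀ i, 1 ≤ v i)
    (hτ : 0 < τ) (hτ1 : τ < 1) (ha : ∀ i, ‖a i‖ ≤ τ ^ v i) {D : ℝ}
    (h : ∀ d, gw v d < D → coeff d f = 0) : ‖ev f a‖ ≤ τ ^ D := by
  have h1 := norm_ev_sub_low_le hf hv hτ hτ1 ha D
  rwa [Finset.sum_eq_zero fun d hd => by rw [h d (mem_low.1 hd), zero_mul], sub_zero] at h1

lemma tsum_finset {f : MvPowerSeries σ K} (s : Finset (σ →₀ ℕ))
    (h : ∀ d ∉ s, coeff d f = 0) :
    ev f a = ∑ d ∈ s, coeff d f * d.prod fun i e => a i ^ e :=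
  tsum_eq_sum fun d hd => by rw [h d hd, zero_mul]

lemma ev_add {f g : MvPowerSeries σ K} (hf : IntegralSeries f) (hg : IntegralSeries g)
    (hv : ∀ i, 1 ≤ v i) (hτ : 0 < τ) (hτ1 : τ < 1) (ha : ∀ i, ‖a i‖ ≤ τ ^ v i) :
    ev (f + g) a = ev f a + ev g a := by
  rw [ev, ev, ev, ← (summable_term hf hv hτ hτ1 ha).tsum_add (summable_term hg hv hτ hτ1 ha)]
  exact tsum_congr fun d => by rw [map_add, add_mul]

lemma ev_mul {f g : MvPowerSeries σ K} (hf : IntegralSeries f) (hg : IntegralSeries g)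
    (hv : ∀ i, 1 ≤ v i) (hτ : 0 < τ) (hτ1 : τ < 1) (ha : ∀ i, ‖a i‖ ≤ τ ^ v i) :
    ev (f * g) a = ev f a * ev g a := by
  classical
  haveI : NonarchimedeanRing K := ⟨NonarchimedeanAddGroup.is_nonarchimedean⟩
  have h1 := summable_term hf hv hτ hτ1 ha
  have h2 := summable_term hg hv hτ hτ1 ha
  have h3 := h1.mul_of_nonarchimedean h2
  have h4 := Summable.tsum_mul_tsum_eq_tsum_sum_antidiagonal h1 h2 h3
  show (∑' _, _) = (∑' _, _) * ∑' _, _
  rw [h4]
  refine tsum_congr fun d => ?_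
  rw [coeff_mul, Finset.sum_mul]
  refine Finset.sum_congr rfl fun x hx => ?_
  rw [Finset.HasAntidiagonal.mem_antidiagonal] at hx
  have hp : (d.prod fun i e => a i ^ e) =
      (x.1.prod fun i e => a i ^ e) * x.2.prod fun i e => a i ^ e := by
    rw [← hx]
    exact Finsupp.prod_add_index' (fun i => pow_zero _) fun i m n => pow_add _ _ _
  rw [hp]
  ring

end Small

/-! ### Series fixed by a ring endomorphism -/

section Fixed

variable (φ : K →+* K)

/-- All coefficients are fixed by `φ`. -/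
def Fixed {σ : Type*} (f : MvPowerSeries σ K) : Prop := MvPowerSeries.map φ f = f

variable {φ}

lemma Fixed.coeff {σ : Type*} {f : MvPowerSeries σ K} (h : Fixed φ f) (d : σ →₀ ℕ) :
    φ (MvPowerSeries.coeff d f) = MvPowerSeries.coeff d f := by
  conv_rhs => rw [← h, coeff_map]

lemma fixed_iff {σ : Type*} {f : MvPowerSeries σ K} :
    Fixed φ f ↔ ∀ d, φ (MvPowerSeries.coeff d f) = MvPowerSeries.coeff d f :=
  ⟨fun h d => h.coeff d, fun h => MvPowerSeries.ext fun d => by rw [coeff_map, h d]⟩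

lemma Fixed.mul {σ : Type*} {f g : MvPowerSeries σ K} (hf : Fixed φ f) (hg : Fixed φ g) :
    Fixed φ (f * g) := by rw [Fixed, map_mul, hf, hg]

lemma Fixed.pow {σ : Type*} {f : MvPowerSeries σ K} (hf : Fixed φ f) (k : ℕ) :
    Fixed φ (f ^ k) := by rw [Fixed, map_pow, hf]

lemma Fixed.one {σ : Type*} : Fixed φ (1 : MvPowerSeries σ K) := map_one _

lemma fixed_X {σ : Type*} (i : σ) : Fixed φ (X i : MvPowerSeries σ K) := map_X φ i

lemma Fixed.prod {σ ι : Type*} (s : Finset ι) {f : ι → MvPowerSeries σ K}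
    (hf : ∀ i ∈ s, Fixed φ (f i)) : Fixed φ (∏ i ∈ s, f i) := by
  rw [Fixed, map_prod]
  exact Finset.prod_congr rfl hf

lemma Fixed.subst {σ τ : Type*} [Finite σ] {f : MvPowerSeries σ K} {b : σ → MvPowerSeries τ K}
    (hf : Fixed φ f) (hb0 : ∀ i, constantCoeff (b i) = 0) (hb : ∀ i, Fixed φ (b i)) :
    Fixed φ (MvPowerSeries.subst b f) := by
  rw [Fixed, map_subst (hasSubst_of_constantCoeff_zero hb0), hf]
  congr 1
  funext i
  exact hb i

end Fixed

section Frobenius

variable {p : ℕ} [Fact p.Prime] [CharP K p] {h : ℕ}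

lemma norm_le_one_of_fixed (hh : 1 ≤ h) {x : K} (hx : iterateFrobenius K p h x = x) :
    ‖x‖ ≤ 1 := by
  rw [iterateFrobenius_def] at hx
  by_contra hlt
  rw [not_le] at hlt
  have h1 : ‖x‖ < ‖x‖ ^ p ^ h := by
    refine lt_self_pow₀ hlt (Nat.one_lt_pow (by omega) (Fact.out : p.Prime).one_lt)
  rw [← norm_pow, hx] at h1
  exact lt_irrefl _ h1

lemma Fixed.integral (hh : 1 ≤ h) {σ : Type*} {f : MvPowerSeries σ K}
    (hf : Fixed (iterateFrobenius K p h) f) : IntegralSeries f :=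
  fun d => norm_le_one_of_fixed hh (hf.coeff d)

variable [CompleteSpace K] [IsUltrametricDist K] {σ : Type*} [Fintype σ] {v : σ → ℝ} {τ : ℝ}
  {a : σ → K}

lemma ev_frobenius (hh : 1 ≤ h) {f : MvPowerSeries σ K} (hf : Fixed (iterateFrobenius K p h) f)
    (hv : ∀ i, 1 ≤ v i) (hτ : 0 < τ) (hτ1 : τ < 1) (ha : ∀ i, ‖a i‖ ≤ τ ^ v i) :
    ev f (fun i => a i ^ p ^ h) = ev f a ^ p ^ h := by
  have hs := (summable_term (hf.integral hh) hv hτ hτ1 ha).hasSum
  have hc : Continuous (iterateFrobenius K p h) := by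
    show Continuous fun x : K => iterateFrobenius K p h x
    simp only [iterateFrobenius_def]
    exact continuous_pow _
  have h2 := (hs.map (iterateFrobenius K p h) hc).tsum_eq
  rw [ev, ← iterateFrobenius_def, ev, ← h2]
  refine tsum_congr fun d => ?_
  simp only [Function.comp_apply, map_mul, hf.coeff d, map_finsuppProd, map_pow,
    iterateFrobenius_def]

end Frobenius

section Subst

variable {p : ℕ} [Fact p.Prime] [CharP K p] {h : ℕ} [CompleteSpace K] [IsUltrametricDist K]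
  {σ ι : Type*} [Fintype σ] [Fintype ι] {v : σ → ℝ} {τ : ℝ} {a : σ → K}

lemma coeff_prod_pow_eq_zero {b : ι → MvPowerSeries σ K} (hb0 : ∀ i, constantCoeff (b i) = 0)
    (k : ι →₀ ℕ) (d : σ →₀ ℕ) (hd : d.degree < k.degree) :
    coeff d (k.prod fun i e => b i ^ e) = 0 := by
  refine coeff_of_lt_order ?_
  calc (d.degree : ℕ∞) < (k.degree : ℕ∞) := by exact_mod_cast hd
    _ = ∑ i ∈ k.support, (k i : ℕ∞) := by rw [Finsupp.degree_apply]; push_cast; rfl
    _ ≤ ∑ i ∈ k.support, (b i ^ k i).order := Finset.sum_le_sum fun i _ => by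
        refine le_trans ?_ (le_order_pow _)
        have h1 : (1 : ℕ∞) ≤ (b i).order :=
          MvPowerSeries.one_le_order_iff_constCoeff_eq_zero.2 (hb0 i)
        calc (k i : ℕ∞) = k i • (1 : ℕ∞) := by rw [nsmul_one]
          _ ≤ k i • (b i).order := nsmul_le_nsmul_right h1 _
    _ ≤ (k.prod fun i e => b i ^ e).order := le_order_prod _ _

lemma ev_one : ev (1 : MvPowerSeries σ K) a = 1 := by
  classical
  rw [tsum_finset {0} fun d hd => by
    rw [coeff_one, if_neg]; simpa using hd]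
  simp

/-- Evaluation commutes with substitution. -/
theorem ev_subst (hh : 1 ≤ h) {f : MvPowerSeries ι K} (hf : Fixed (iterateFrobenius K p h) f)
    {b : ι → MvPowerSeries σ K} (hb : ∀ i, Fixed (iterateFrobenius K p h) (b i))
    (hb0 : ∀ i, constantCoeff (b i) = 0)
    (hv : ∀ i, 1 ≤ v i) (hτ : 0 < τ) (hτ1 : τ < 1) (ha : ∀ i, ‖a i‖ ≤ τ ^ v i) :
    ev (MvPowerSeries.subst b f) a = ev f (fun i => ev (b i) a) := by
  classical
  set φ := iterateFrobenius K p h
  have h1v : ∀ i : ι, (1 : ℝ) ≤ (fun _ => (1 : ℝ)) i := fun _ => le_rfl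
  have ha1 : ∀ i : σ, ‖a i‖ ≤ τ ^ (fun _ : σ => (1 : ℝ)) i := fun i =>
    (ha i).trans (Real.rpow_le_rpow_of_exponent_ge hτ hτ1.le (hv i))
  have h1σ : ∀ i : σ, (1 : ℝ) ≤ (fun _ => (1 : ℝ)) i := fun _ => le_rfl
  set u : ι → K := fun i => ev (b i) a
  have hu : ∀ i, ‖u i‖ ≤ τ ^ (fun _ : ι => (1 : ℝ)) i := fun i => by
    refine norm_ev_le ((hb i).integral hh) h1σ hτ hτ1 ha1 fun d hd => ?_
    rw [gw_one] at hd
    have : d = 0 := by
      rw [← Finsupp.degree_eq_zero_iff]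
      have : d.degree < 1 := Nat.cast_lt.1 (hd.trans_eq Nat.cast_one.symm)
      omega
    rw [this, coeff_zero_eq_constantCoeff_apply, hb0]
  have hpow : ∀ (i : ι) (j : ℕ), ev (b i ^ j) a = u i ^ j := by
    intro i j
    induction j with
    | zero => rw [pow_zero, pow_zero, ev_one]
    | succ j ih =>
      rw [pow_succ, pow_succ, ev_mul (((hb i).pow j).integral hh) ((hb i).integral hh) hv hτ hτ1
        ha, ih]
  have hprod : ∀ (k : ι →₀ ℕ), ev (k.prod fun i e => b i ^ e) a = k.prod fun i e => u i ^ e := by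
    intro k
    rw [Finsupp.prod, Finsupp.prod]
    generalize k.support = s
    induction s using Finset.induction_on with
    | empty => rw [Finset.prod_empty, Finset.prod_empty, ev_one]
    | insert i s hi ih =>
      rw [Finset.prod_insert hi, Finset.prod_insert hi, ev_mul (((hb i).pow _).integral hh)
        ((Fixed.prod s fun j _ => (hb j).pow _).integral hh) hv hτ hτ1 ha, hpow, ih]
  set F := MvPowerSeries.subst b f with hF
  have hFfix : Fixed φ F := hf.subst hb0 hb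
  have key : ∀ N : ℕ, ‖ev F a - ev f u‖ ≤ τ ^ (N : ℝ) := by
    intro N
    set S := low h1v (N : ℝ)
    let g : (ι →₀ ℕ) → MvPowerSeries σ K := fun k => C (coeff k f) * k.prod fun i e => b i ^ e
    have hgfix : ∀ k, Fixed φ (g k) := fun k =>
      Fixed.mul (by rw [Fixed, map_C, hf.coeff]) (Fixed.prod _ fun j _ => (hb j).pow _)
    have hrest : Fixed φ (F - ∑ k ∈ S, g k) := by
      rw [Fixed, map_sub, map_sum, hFfix]
      exact congrArg _ (Finset.sum_congr rfl fun k _ => hgfix k)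
    have hzero : ∀ d, gw (fun _ : σ => (1 : ℝ)) d < N → coeff d (F - ∑ k ∈ S, g k) = 0 := by
      intro d hd
      rw [gw_one] at hd
      rw [map_sub, map_sum, hF, coeff_subst (hasSubst_of_constantCoeff_zero hb0),
        finsum_eq_sum_of_support_subset _ (s := S) ?_, sub_eq_zero]
      · exact Finset.sum_congr rfl fun k _ => by rw [coeff_C_mul, smul_eq_mul]
      · intro k hk
        rw [Finset.mem_coe, mem_low, gw_one]
        by_contra hge
        rw [not_lt] at hge
        refine hk ?_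
        show coeff k f • _ = 0
        rw [coeff_prod_pow_eq_zero hb0 k d (by exact_mod_cast lt_of_lt_of_le hd hge), smul_zero]
    have hgsum : ev (∑ k ∈ S, g k) a = ∑ k ∈ S, coeff k f * k.prod fun i e => u i ^ e := by
      have : ∀ T : Finset (ι →₀ ℕ), Fixed φ (∑ k ∈ T, g k) := fun T => by
        rw [Fixed, map_sum]; exact Finset.sum_congr rfl fun k _ => hgfix k
      generalize S = T
      induction T using Finset.induction_on with
      | empty => simp [ev]
      | insert k T hk ih =>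
        rw [Finset.sum_insert hk, Finset.sum_insert hk,
          ev_add ((hgfix k).integral hh) ((this T).integral hh) hv hτ hτ1 ha, ih, ← hprod k]
        congr 1
        rw [ev, ev, ← tsum_mul_left]
        exact tsum_congr fun d => by simp only [g]; rw [coeff_C_mul, mul_assoc]
    have hsplit : ev F a = ev (∑ k ∈ S, g k) a + ev (F - ∑ k ∈ S, g k) a := by
      have hS : Fixed φ (∑ k ∈ S, g k) := by
        rw [Fixed, map_sum]; exact Finset.sum_congr rfl fun k _ => hgfix k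
      rw [← ev_add (hS.integral hh) (hrest.integral hh) hv hτ hτ1 ha, add_sub_cancel]
    have h2 := norm_ev_sub_low_le (hf.integral hh) h1v hτ hτ1 hu (N : ℝ)
    have h3 := norm_ev_le (hrest.integral hh) h1σ hτ hτ1 ha1 hzero
    have e : ev F a - ev f u = ev (F - ∑ k ∈ S, g k) a -
        (ev f u - ∑ k ∈ S, coeff k f * k.prod fun i e => u i ^ e) := by
      rw [hsplit, hgsum]; ring
    rw [e, sub_eq_add_neg]
    refine (IsUltrametricDist.norm_add_le_max _ _).trans (max_le h3 ?_)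
    rwa [norm_neg]
  have hlim : Tendsto (fun N : ℕ => τ ^ (N : ℝ)) atTop (𝓝 0) := by
    simp only [Real.rpow_natCast]
    exact tendsto_pow_atTop_nhds_zero_of_lt_one hτ.le hτ1
  exact sub_eq_zero.1 (norm_le_zero_iff.1 (ge_of_tendsto' hlim key))

end Subst

end Vale.Agent.P217.Rigid
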