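/-
P217, block RIGID: the sums along which the series vanish.
-/
import Vale.Agent.P217.Rigid.Basic

namespace Vale.Agent.P217.Rigid

open MvPowerSeries

/-- The data of the rigidity lemma apart from the series. -/
structure Data (p h r : ℕ) (K : Type) [NormedField K] (ι : Type) where
  hh : 1 ≤ h
  H : MvPowerSeries (Fin 2) K
  v : Fin r → ℝ
  σ : ι → ℝ
  w : ι → Fin r → K
  H0 : constantCoeff H = 0
  H_fix : ∀ d, coeff d H ^ p ^ h = coeff d H
  v_ge : ∀ l, 1 ≤ v l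
  σ_pos : ∀ i, 0 < σ i
  σ_lt : ∀ i, σ i < 1
  w_le : ∀ i l, ‖w i l‖ ≤ σ i ^ v l

variable {p h r : ℕ} {K : Type} [NormedField K] {ι : Type}

namespace Data

variable (E : Data p h r K ι)

/-- The point attached to a list of indices and Frobenius exponents. -/
noncomputable def orbit {m : ℕ} (c : Fin m → ι) (R : Fin m → ℕ) : Fin r → K :=
  evSum E.H fun s l => E.w (c s) l ^ (p ^ h) ^ R s

/-- A series vanishes on all orbit points. -/
def Vanish (f : MvPowerSeries (Fin r) K) : Prop :=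
  ∀ (m : ℕ) (c : Fin m → ι) (R : Fin m → ℕ), ev f (E.orbit c R) = 0

lemma orbit_snoc {m : ℕ} (c : Fin m → ι) (R : Fin m → ℕ) (i : ι) (R' : ℕ) :
    E.orbit (Fin.snoc c i) (Fin.snoc R R') =
      fun l => ev E.H ![E.orbit c R l, E.w i l ^ (p ^ h) ^ R'] := by
  funext l
  simp only [orbit, evSum, Fin.snoc_castSucc, Fin.snoc_last]

lemma exists_sigma_le [Finite ι] (E : Data p h r K ι) :
    ∃ τ : ℝ, 0 < τ ∧ τ < 1 ∧ ∀ i, E.σ i ≤ τ := by
  classical
  haveI := Fintype.ofFinite ι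
  set S : Finset ℝ := insert (1/2 : ℝ) (Finset.univ.image E.σ) with hS
  have hne : S.Nonempty := Finset.insert_nonempty _ _
  refine ⟨S.max' hne, ?_, ?_, fun i => ?_⟩
  · exact lt_of_lt_of_le one_half_pos (Finset.le_max' S _ (Finset.mem_insert_self _ _))
  · rw [Finset.max'_lt_iff]
    intro y hy
    rw [hS, Finset.mem_insert, Finset.mem_image] at hy
    rcases hy with rfl | ⟨i, -, rfl⟩
    · norm_num
    · exact E.σ_lt i
  · exact Finset.le_max' S _ (Finset.mem_insert_of_mem (Finset.mem_image_of_mem _ (Finset.mem_univ i)))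

variable [Fact p.Prime]

lemma one_le_pow_P (R : ℕ) : 1 ≤ (p ^ h) ^ R :=
  Nat.one_le_pow _ _ (pow_pos (Fact.out : p.Prime).pos _)

lemma w_pow_le (i : ι) (R : ℕ) (l : Fin r) :
    ‖E.w i l ^ (p ^ h) ^ R‖ ≤ (E.σ i ^ ((p ^ h) ^ R : ℕ)) ^ E.v l := by
  rw [norm_pow, ← Real.rpow_natCast_mul (E.σ_pos i).le, mul_comm,
    Real.rpow_mul_natCast (E.σ_pos i).le]
  exact pow_le_pow_left₀ (norm_nonneg _) (E.w_le i l) _

lemma w_pow_le_of_le {τ : ℝ} (hτ : ∀ i, E.σ i ≤ τ) (i : ι) (R : ℕ) (l : Fin r) :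
    ‖E.w i l ^ (p ^ h) ^ R‖ ≤ τ ^ E.v l := by
  refine (E.w_pow_le i R l).trans (Real.rpow_le_rpow (pow_nonneg (E.σ_pos i).le _) ?_
    (zero_le_one.trans (E.v_ge l)))
  exact (pow_le_of_le_one (E.σ_pos i).le (E.σ_lt i).le
    (Nat.one_le_iff_ne_zero.1 (one_le_pow_P R))).trans (hτ i)

variable [CharP K p]

lemma H_fixed : Fixed (iterateFrobenius K p h) E.H :=
  fixed_iff.2 fun d => by rw [iterateFrobenius_def, E.H_fix d]

variable [CompleteSpace K] [IsUltrametricDist K]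

lemma ev_two_le {τ : ℝ} (hτ : 0 < τ) (hτ1 : τ < 1) {a b : K} (ha : ‖a‖ ≤ τ) (hb : ‖b‖ ≤ τ) :
    ‖ev E.H ![a, b]‖ ≤ τ := by
  have h1 : ∀ i : Fin 2, ‖(![a, b] : Fin 2 → K) i‖ ≤ τ ^ (fun _ => (1 : ℝ)) i := by
    intro i; fin_cases i <;> simpa
  have := norm_ev_le (D := 1) (E.H_fixed.integral E.hh) (fun _ => le_rfl) hτ hτ1 h1 fun d hd => by
    rw [gw_one] at hd
    have h0 : d.degree < 1 := Nat.cast_lt.1 (hd.trans_eq Nat.cast_one.symm)
    rw [show d = 0 by rw [← Finsupp.degree_eq_zero_iff]; omega,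
      coeff_zero_eq_constantCoeff_apply, E.H0]
  rwa [Real.rpow_one] at this

lemma evSum_small {τ : ℝ} (hτ : 0 < τ) (hτ1 : τ < 1) : ∀ {m : ℕ} (y : Fin m → Fin r → K),
    (∀ s l, ‖y s l‖ ≤ τ ^ E.v l) → ∀ l, ‖evSum E.H y l‖ ≤ τ ^ E.v l
  | 0, _, _, l => by
    simp only [evSum, Pi.zero_apply, norm_zero]
    exact Real.rpow_nonneg hτ.le _
  | m + 1, y, hy, l => by
    simp only [evSum]
    exact E.ev_two_le (Real.rpow_pos_of_pos hτ _)
      (Real.rpow_lt_one hτ.le hτ1 (zero_lt_one.trans_le (E.v_ge l)))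
      (evSum_small hτ hτ1 _ (fun s l => hy _ l) l) (hy _ l)

lemma evSum_frobenius {τ : ℝ} (hτ : 0 < τ) (hτ1 : τ < 1) : ∀ {m : ℕ} (y : Fin m → Fin r → K),
    (∀ s l, ‖y s l‖ ≤ τ ^ E.v l) →
      ∀ l, evSum E.H (fun s l => y s l ^ p ^ h) l = evSum E.H y l ^ p ^ h
  | 0, _, _, l => by
    simp only [evSum, Pi.zero_apply]
    rw [zero_pow (pow_ne_zero _ (Fact.out : p.Prime).ne_zero)]
  | m + 1, y, hy, l => by
    simp only [evSum]
    rw [evSum_frobenius hτ hτ1 _ (fun s l => hy _ l) l]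
    have hl := Real.rpow_pos_of_pos hτ (E.v l)
    have hl1 := Real.rpow_lt_one hτ.le hτ1 (zero_lt_one.trans_le (E.v_ge l))
    rw [← ev_frobenius (p := p) (v := fun _ : Fin 2 => (1 : ℝ))
      (τ := τ ^ E.v l) (a := ![evSum E.H (fun s => y s.castSucc) l, y (Fin.last m) l]) E.hh
      E.H_fixed (fun _ => le_rfl) hl hl1 ?_]
    · congr 1
      funext i
      fin_cases i <;> rfl
    · intro i
      fin_cases i
      · simpa using E.evSum_small hτ hτ1 _ (fun s l => hy s.castSucc l) l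
      · simpa using hy (Fin.last m) l

lemma orbit_le {τ : ℝ} (hτ : 0 < τ) (hτ1 : τ < 1) (hσ : ∀ i, E.σ i ≤ τ) {m : ℕ} (c : Fin m → ι)
    (R : Fin m → ℕ) (l : Fin r) : ‖E.orbit c R l‖ ≤ τ ^ E.v l :=
  E.evSum_small hτ hτ1 _ (fun _ l => E.w_pow_le_of_le hσ _ _ l) l

lemma orbit_shift [Finite ι] {m : ℕ} (c : Fin m → ι) (R : Fin m → ℕ) (N : ℕ) :
    E.orbit c (fun s => N + R s) = fun l => E.orbit c R l ^ (p ^ h) ^ N := by
  obtain ⟨τ, hτ, hτ1, hσ⟩ := E.exists_sigma_le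
  induction N with
  | zero => simp
  | succ N ih =>
    funext l
    have h1 : (fun (s : Fin m) l => E.w (c s) l ^ (p ^ h) ^ (N + 1 + R s)) =
        fun s l => (E.w (c s) l ^ (p ^ h) ^ (N + R s)) ^ p ^ h := by
      funext s l
      rw [← pow_mul (E.w (c s) l), ← pow_succ]
      congr 2
      omega
    have h2 : E.orbit c (fun s => N + 1 + R s) l =
        E.orbit c (fun s => N + R s) l ^ p ^ h := by
      simp only [orbit, h1]
      exact E.evSum_frobenius hτ hτ1 _ (fun s l => E.w_pow_le_of_le hσ _ _ l) l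
    rw [h2, ih]
    dsimp only
    rw [← pow_mul (E.orbit c R l), ← pow_succ]

end Data

end Vale.Agent.P217.Rigid
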