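/-
P217, block RIGID: finitely supported series bounded along Frobenius orbits.
-/
import Vale.Agent.P217.Rigid.Orbit
import Vale.Agent.P217.Rigid.Descent

namespace Vale.Agent.P217.Rigid

open MvPowerSeries Filter Topology

/-- The series with given coefficients on a finite set of exponents. -/
noncomputable def ofFinset {σ : Type*} {K : Type*} [Semiring K] (S : Finset (σ →₀ ℕ))
    (x : S → K) : MvPowerSeries σ K :=
  letI := Classical.decPred fun d : σ →₀ ℕ => d ∈ S
  fun d => if h : d ∈ S then x ⟨d, h⟩ else 0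

section OfFinset

variable {σ : Type*} {K : Type*} [NormedField K] (S : Finset (σ →₀ ℕ))

lemma coeff_ofFinset (x : S → K) (d : S) : coeff d.1 (ofFinset S x) = x d := by
  rw [coeff_apply]
  simp [ofFinset]

lemma coeff_ofFinset_of_notMem (x : S → K) {d : σ →₀ ℕ} (hd : d ∉ S) :
    coeff d (ofFinset S x) = 0 := by
  rw [coeff_apply]
  simp [ofFinset, hd]

/-- Value of a finitely supported series, linearly in its coefficients. -/
noncomputable def val (a : σ → K) : (S → K) →ₗ[K] K where
  toFun x := ∑ s : S, x s * s.1.prod fun i e => a i ^ e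
  map_add' x y := by simp [add_mul, Finset.sum_add_distrib]
  map_smul' c x := by simp [Finset.mul_sum, mul_assoc]

lemma val_apply (a : σ → K) (x : S → K) :
    val S a x = ∑ s : S, x s * s.1.prod fun i e => a i ^ e := rfl

lemma ev_ofFinset [Fintype σ] [CompleteSpace K] [IsUltrametricDist K] (a : σ → K) (x : S → K) :
    ev (ofFinset S x) a = val S a x := by
  rw [tsum_finset S fun d hd => coeff_ofFinset_of_notMem S x hd, val_apply, ← Finset.sum_coe_sort S]
  exact Finset.sum_congr rfl fun s _ => by rw [coeff_ofFinset]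

lemma val_map (φ : K →+* K) (a : σ → K) (x : S → K) :
    val S (fun i => φ (a i)) (fun s => φ (x s)) = φ (val S a x) := by
  simp only [val_apply, map_sum, map_mul, map_finsuppProd, map_pow]

end OfFinset

section Bdd

variable {σ α : Type*} {K : Type*} [NormedField K] [IsUltrametricDist K] (S : Finset (σ →₀ ℕ))

/-- Coefficient vectors whose values at the `P^N`-th powers of the points decay like `θ^(D P^N)`. -/
def bddSub (P D : ℕ) (pts : α → σ → K) (θ : α → ℝ) (hθ : ∀ a, 0 ≤ θ a) : Submodule K (S → K) where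
  carrier := {x | ∀ a, ∃ (C : ℝ) (N₀ : ℕ), 0 ≤ C ∧ ∀ N ≥ N₀,
    ‖val S (fun l => pts a l ^ P ^ N) x‖ ≤ C * θ a ^ (D * P ^ N)}
  add_mem' := by
    intro x y hx hy a
    obtain ⟨C1, N1, hC1, h1⟩ := hx a
    obtain ⟨C2, N2, hC2, h2⟩ := hy a
    refine ⟨max C1 C2, max N1 N2, le_max_of_le_left hC1, fun N hN => ?_⟩
    rw [map_add]
    refine (IsUltrametricDist.norm_add_le_max _ _).trans (max_le ?_ ?_)
    · exact (h1 N (le_of_max_le_left hN)).trans
        (mul_le_mul_of_nonneg_right (le_max_left _ _) (pow_nonneg (hθ a) _))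
    · exact (h2 N (le_of_max_le_right hN)).trans
        (mul_le_mul_of_nonneg_right (le_max_right _ _) (pow_nonneg (hθ a) _))
  zero_mem' := fun a => ⟨0, 0, le_rfl, fun N _ => by simp⟩
  smul_mem' := by
    intro b x hx a
    obtain ⟨C1, N1, hC1, h1⟩ := hx a
    refine ⟨‖b‖ * C1, N1, mul_nonneg (norm_nonneg _) hC1, fun N hN => ?_⟩
    rw [map_smul, norm_smul, mul_assoc]
    exact mul_le_mul_of_nonneg_left (h1 N hN) (norm_nonneg _)

variable {p h : ℕ} [Fact p.Prime] [CharP K p] {D : ℕ} {pts : α → σ → K} {θ : α → ℝ}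
  {hθ : ∀ a, 0 ≤ θ a}

lemma bddSub_stable {x : S → K} (hx : x ∈ bddSub S (p ^ h) D pts θ hθ) :
    (fun s => iterateFrobenius K p h (x s)) ∈ bddSub S (p ^ h) D pts θ hθ := by
  intro a
  obtain ⟨C1, N1, hC1, h1⟩ := hx a
  refine ⟨C1 ^ p ^ h, N1 + 1, pow_nonneg hC1 _, fun N hN => ?_⟩
  obtain ⟨M, rfl⟩ : ∃ M, N = M + 1 := ⟨N - 1, by omega⟩
  have he : (fun l => pts a l ^ (p ^ h) ^ (M + 1)) =
      fun l => iterateFrobenius K p h (pts a l ^ (p ^ h) ^ M) := by
    funext l
    rw [iterateFrobenius_def, ← pow_mul (pts a l), ← pow_succ]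
  rw [he, val_map, iterateFrobenius_def, norm_pow, pow_succ, ← mul_assoc, pow_mul (θ a), ← mul_pow]
  exact pow_le_pow_left₀ (norm_nonneg _) (h1 M (by omega)) _

/-- A fixed vector in the bounded subspace is bounded at the points themselves. -/
lemma norm_val_le (hh : 1 ≤ h) {x : S → K} (hx : x ∈ bddSub S (p ^ h) D pts θ hθ)
    (hfix : ∀ s, iterateFrobenius K p h (x s) = x s) (a : α) (ha : 0 < θ a) :
    ‖val S (pts a) x‖ ≤ θ a ^ D := by
  have hP : 1 < p ^ h := Nat.one_lt_pow (by omega) (Fact.out : p.Prime).one_lt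
  obtain ⟨C, N0, hC0, hC⟩ := hx a
  have ht : 0 < θ a ^ D := pow_pos ha D
  have hN : ∀ N ≥ N0, ‖val S (pts a) x‖ ^ (p ^ h) ^ N ≤ C * (θ a ^ D) ^ (p ^ h) ^ N := by
    intro N hN
    have h1 := hC N hN
    have h2 := val_map S (iterateFrobenius K p (h * N)) (pts a) x
    have h3 : ∀ s, iterateFrobenius K p (h * N) (x s) = x s := by
      intro s
      rw [iterateFrobenius_def, pow_mul]
      clear h2 h1 hN
      induction N with
      | zero => simp
      | succ N ih =>
        rw [pow_succ, pow_mul (x s), ih, ← iterateFrobenius_def]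
        exact hfix s
    simp only [h3] at h2
    simp only [iterateFrobenius_def, pow_mul] at h2
    rw [h2, norm_pow, pow_mul (θ a)] at h1
    exact h1
  by_contra hlt
  rw [not_le] at hlt
  have hq : 1 < ‖val S (pts a) x‖ / θ a ^ D := (one_lt_div ht).2 hlt
  obtain ⟨n, hn⟩ := pow_unbounded_of_one_lt C hq
  have h2 : (‖val S (pts a) x‖ / θ a ^ D) ^ (p ^ h) ^ max n N0 ≤ C := by
    rw [div_pow, div_le_iff₀ (pow_pos ht _)]
    exact hN _ (le_max_right _ _)
  have h3 := pow_le_pow_right₀ hq.le ((le_max_left n N0).trans (Nat.lt_pow_self hP (n := max n N0)).le)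
  linarith

end Bdd

end Vale.Agent.P217.Rigid
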