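/-
P217, block RIGID: replacing the series by one with coefficients in a finite field.
-/
import Vale.Agent.P217.Rigid.Bounded
import Vale.Agent.P217.SpecPos

namespace Vale.Agent.P217.Rigid

open MvPowerSeries Filter Topology

lemma finite_fixed {K : Type*} [Field K] {P : ℕ} (hP : 1 < P) : {x : K | x ^ P = x}.Finite := by
  refine (Polynomial.finite_setOf_isRoot (FiniteField.X_pow_card_sub_X_ne_zero K hP)).subset ?_
  intro x hx
  simp only [Set.mem_setOf_eq] at hx
  simp [hx]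

variable {p h r : ℕ} [Fact p.Prime] {K : Type} [NormedField K] [CharP K p] [CompleteSpace K]
  [IsUltrametricDist K] {ι : Type}

lemma fixed_zero {σ : Type*} {φ : K →+* K} : Fixed φ (0 : MvPowerSeries σ K) := map_zero _

/-- A series vanishing to every order along the orbit can be replaced by a series with fixed
coefficients vanishing on the orbit, with the same vanishing conditions on coefficients. -/
theorem exists_fixed_limit [Finite ι] (E : Data p h r K ι) {f : MvPowerSeries (Fin r) K}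
    (hvan : VanishesOnOrbit (p ^ h) E.v E.H E.w f) (J : Finset (Fin r)) {W : ℝ}
    (hlow : ∀ d, wt E.v d < W → coeff d f = 0)
    (hJ : ∀ d, wt E.v d = W → ¬ (d.support ⊆ J) → coeff d f = 0)
    {d0 : Fin r →₀ ℕ} (hd0 : wt E.v d0 = W) (hf0 : coeff d0 f ≠ 0) :
    ∃ Φ : MvPowerSeries (Fin r) K, Fixed (iterateFrobenius K p h) Φ ∧ E.Vanish Φ ∧
      (∀ d, wt E.v d < W → coeff d Φ = 0) ∧
      (∀ d, wt E.v d = W → ¬ (d.support ⊆ J) → coeff d Φ = 0) ∧ coeff d0 Φ = 1 := by
  classical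
  set φ := iterateFrobenius K p h with hφ
  have hP : 1 < p ^ h := Nat.one_lt_pow (by have := E.hh; omega) (Fact.out : p.Prime).one_lt
  obtain ⟨τ, hτ, hτ1, hσ⟩ := E.exists_sigma_le
  choose θ hθ0 hθ1 hθ using hvan
  let θ' : ∀ m : ℕ, (Fin m → ι) → (Fin m → ℕ) → ℝ := fun m c R => max (θ m c R) τ
  have step : ∀ D : ℕ, ∃ g : MvPowerSeries (Fin r) K, Fixed φ g ∧
      (∀ d, wt E.v d < W → coeff d g = 0) ∧
      (∀ d, wt E.v d = W → ¬ (d.support ⊆ J) → coeff d g = 0) ∧
      (W < D → coeff d0 g = 1) ∧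
      ∀ (m : ℕ) (c : Fin m → ι) (R : Fin m → ℕ), ‖ev g (E.orbit c R)‖ ≤ θ' m c R ^ D := by
    intro D
    by_cases hWD : W < (D : ℝ)
    swap
    · exact ⟨0, fixed_zero, fun _ _ => map_zero _, fun _ _ _ => map_zero _,
        fun h => absurd h hWD, fun m c R => by
          simpa [ev] using pow_nonneg (hτ.le.trans (le_max_right (θ m c R) τ)) D⟩
    set S := low E.v_ge (D : ℝ) with hS
    let Z : Submodule K (S → K) :=
      { carrier := {x | (∀ s : S, wt E.v s.1 < W → x s = 0) ∧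
          ∀ s : S, wt E.v s.1 = W → ¬ (s.1.support ⊆ J) → x s = 0}
        add_mem' := by
          rintro x y ⟨hx1, hx2⟩ ⟨hy1, hy2⟩
          exact ⟨fun s hs => by simp [hx1 s hs, hy1 s hs],
            fun s hs hs' => by simp [hx2 s hs hs', hy2 s hs hs']⟩
        zero_mem' := ⟨fun _ _ => rfl, fun _ _ _ => rfl⟩
        smul_mem' := by
          rintro a x ⟨hx1, hx2⟩
          exact ⟨fun s hs => by simp [hx1 s hs], fun s hs hs' => by simp [hx2 s hs hs']⟩ }
    let θa : (Σ m, (Fin m → ι) × (Fin m → ℕ)) → ℝ := fun a => θ' a.1 a.2.1 a.2.2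
    let V := Z ⊓ bddSub S (p ^ h) D (fun a : (Σ m, (Fin m → ι) × (Fin m → ℕ)) =>
      E.orbit a.2.1 a.2.2) θa fun a => hτ.le.trans (le_max_right _ _)
    have hVφ : ∀ x ∈ V, (fun s => φ (x s)) ∈ V := by
      rintro x ⟨⟨hx1, hx2⟩, hx3⟩
      exact ⟨⟨fun s hs => by simp [hx1 s hs], fun s hs hs' => by simp [hx2 s hs hs']⟩,
        bddSub_stable S hx3⟩
    set x0 : S → K := fun s => coeff s.1 f with hx0
    have hx0V : x0 ∈ V := by
      refine ⟨⟨fun s hs => hlow _ hs, fun s hs hs' => hJ _ hs hs'⟩, fun a => ?_⟩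
      obtain ⟨m, c, R⟩ := a
      obtain ⟨C, N0, hC⟩ := hθ m c R D
      refine ⟨max C 0, N0, le_max_right _ _, fun N hN => ?_⟩
      have heq : ev (truncWt E.v D f) (fun l => E.orbit c R l ^ (p ^ h) ^ N) =
          val S (fun l => E.orbit c R l ^ (p ^ h) ^ N) x0 := by
        rw [← ev_ofFinset]
        congr 1
        refine MvPowerSeries.ext fun d => ?_
        by_cases hd : d ∈ S
        · rw [coeff_ofFinset S x0 ⟨d, hd⟩, coeff_apply]
          have : wt E.v d < D := mem_low.1 hd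
          simp only [truncWt, if_pos this, hx0]
        · rw [coeff_ofFinset_of_notMem S x0 hd, coeff_apply]
          have : ¬ wt E.v d < D := fun h => hd (mem_low.2 h)
          simp only [truncWt, if_neg this]
      have h1 := hC N hN
      have hsh : (evSum E.H fun s l => E.w (c s) l ^ (p ^ h) ^ (N + R s)) =
          fun l => E.orbit c R l ^ (p ^ h) ^ N := E.orbit_shift c R N
      rw [hsh, heq] at h1
      refine h1.trans (mul_le_mul (le_max_left _ _) ?_ (pow_nonneg (hθ0 m c R).le _)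
        (le_max_right _ _))
      exact pow_le_pow_left₀ (hθ0 m c R).le (le_max_left _ _) _
    have hd0S : d0 ∈ S := mem_low.2 (lt_of_eq_of_lt hd0 hWD)
    obtain ⟨g, hgV, hgfix, hg0⟩ : ∃ g, g ∈ V ∧ (∀ s, φ (g s) = g s) ∧ g ⟨d0, hd0S⟩ ≠ 0 := by
      by_contra hno
      simp only [not_exists, not_and, not_not] at hno
      have hle : Submodule.span K {g : S → K | g ∈ V ∧ ∀ s, φ (g s) = g s} ≤
          (LinearMap.proj (R := K) (φ := fun _ : S => K) ⟨d0, hd0S⟩).ker := by
        rw [Submodule.span_le]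
        exact fun g hg => hno g hg.1 hg.2
      exact hf0 (hle (mem_span_fixed φ hVφ hx0V))
    set x1 : S → K := (g ⟨d0, hd0S⟩)⁻¹ • g with hx1
    have hx1V : x1 ∈ V := V.smul_mem _ hgV
    have hx1fix : ∀ s, φ (x1 s) = x1 s := fun s => by simp [hx1, map_inv₀, hgfix]
    have hfix : Fixed φ (ofFinset S x1) := fixed_iff.2 fun d => by
      by_cases hd : d ∈ S
      · rw [coeff_ofFinset S x1 ⟨d, hd⟩, hx1fix]
      · rw [coeff_ofFinset_of_notMem S x1 hd, map_zero]
    refine ⟨ofFinset S x1, hfix, fun d hd => ?_, fun d hd hd' => ?_, fun _ => ?_, fun m c R => ?_⟩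
    · by_cases hdS : d ∈ S
      · rw [coeff_ofFinset S x1 ⟨d, hdS⟩]; exact hx1V.1.1 ⟨d, hdS⟩ hd
      · exact coeff_ofFinset_of_notMem S x1 hdS
    · by_cases hdS : d ∈ S
      · rw [coeff_ofFinset S x1 ⟨d, hdS⟩]; exact hx1V.1.2 ⟨d, hdS⟩ hd hd'
      · exact coeff_ofFinset_of_notMem S x1 hdS
    · rw [coeff_ofFinset S x1 ⟨d0, hd0S⟩, hx1, Pi.smul_apply, smul_eq_mul, inv_mul_cancel₀ hg0]
    · rw [ev_ofFinset]
      exact norm_val_le S E.hh hx1V.2 hx1fix ⟨m, c, R⟩ (lt_of_lt_of_le hτ (le_max_right _ _))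
  choose g hgfix hglow hgJ hg1 hgb using step
  set U := hyperfilter ℕ with hU
  have hbig : ∀ M : ℕ, ∀ᶠ D in (U : Filter ℕ), M ≤ D := fun M =>
    hyperfilter_le_cofinite (by rw [Nat.cofinite_eq_atTop]; exact eventually_ge_atTop M)
  have hex : ∀ d, ∃ a : K, φ a = a ∧ ∀ᶠ D in (U : Filter ℕ), coeff d (g D) = a := by
    intro d
    have hfin : {a : K | φ a = a}.Finite := by
      simpa [hφ, iterateFrobenius_def] using finite_fixed (K := K) hP
    have hmem : (⋃ a ∈ {a : K | φ a = a}, {D : ℕ | coeff d (g D) = a}) ∈ U := by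
      refine Filter.univ_mem' fun D => ?_
      simp only [Set.mem_iUnion, Set.mem_setOf_eq]
      exact ⟨_, (hgfix D).coeff d, rfl⟩
    exact (Ultrafilter.finite_biUnion_mem_iff hfin).1 hmem
  choose Φ hΦfix hΦ using hex
  set Φs : MvPowerSeries (Fin r) K := fun d => Φ d with hΦs
  have hco : ∀ d, coeff d Φs = Φ d := fun d => rfl
  refine ⟨Φs, fixed_iff.2 fun d => by rw [hco]; exact hΦfix d, ?_, ?_, ?_, ?_⟩
  · intro m c R
    have hΦf : Fixed φ Φs := fixed_iff.2 fun d => by rw [hco]; exact hΦfix d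
    set q := θ' m c R with hq
    have hq1 : q < 1 := max_lt (hθ1 m c R) hτ1
    have hq0 : 0 < q := lt_of_lt_of_le hτ (le_max_right _ _)
    have hη := E.orbit_le hτ hτ1 hσ c R
    have key : ∀ M : ℕ, ‖ev Φs (E.orbit c R)‖ ≤ q ^ M := by
      intro M
      obtain ⟨D, hD, hMD⟩ :=
        (((Filter.eventually_all_finset (low E.v_ge (M : ℝ))).2 fun d _ => hΦ d).and (hbig M)).exists
      have h1 := norm_ev_sub_low_le (hΦf.integral E.hh) E.v_ge hτ hτ1 hη (M : ℝ)
      have h2 := norm_ev_sub_low_le ((hgfix D).integral E.hh) E.v_ge hτ hτ1 hη (M : ℝ)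
      have h3 : ∑ d ∈ low E.v_ge (M : ℝ), coeff d Φs *
            (d.prod fun i e => E.orbit c R i ^ e) =
          ∑ d ∈ low E.v_ge (M : ℝ), coeff d (g D) * d.prod fun i e => E.orbit c R i ^ e :=
        Finset.sum_congr rfl fun d hd => by rw [hco, hD d hd]
      have hτM : τ ^ (M : ℝ) ≤ q ^ M := by
        rw [Real.rpow_natCast]
        exact pow_le_pow_left₀ hτ.le (le_max_right _ _) M
      rw [h3] at h1
      have h4 : ‖ev (g D) (E.orbit c R)‖ ≤ q ^ M :=
        (hgb D m c R).trans (pow_le_pow_of_le_one hq0.le hq1.le hMD)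
      set A := ev Φs (E.orbit c R)
      set B := ev (g D) (E.orbit c R)
      set T := ∑ d ∈ low E.v_ge (M : ℝ), coeff d (g D) * d.prod fun i e => E.orbit c R i ^ e
      have e : A = (A - T) + (-(B - T) + B) := by ring
      rw [e]
      refine (IsUltrametricDist.norm_add_le_max _ _).trans (max_le (h1.trans hτM) ?_)
      refine (IsUltrametricDist.norm_add_le_max _ _).trans (max_le ?_ h4)
      rw [norm_neg]
      exact h2.trans hτM
    exact norm_le_zero_iff.1
      (ge_of_tendsto' (tendsto_pow_atTop_nhds_zero_of_lt_one hq0.le hq1) key)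
  · intro d hd
    obtain ⟨D, hD⟩ := (hΦ d).exists
    rw [hco, ← hD, hglow D d hd]
  · intro d hd hd'
    obtain ⟨D, hD⟩ := (hΦ d).exists
    rw [hco, ← hD, hgJ D d hd hd']
  · obtain ⟨D, hD, hW⟩ := ((hΦ d0).and (hbig (⌊W⌋₊ + 1))).exists
    rw [hco, ← hD, hg1 D ?_]
    calc W < (⌊W⌋₊ : ℝ) + 1 := Nat.lt_floor_add_one W
      _ ≤ D := by exact_mod_cast hW

end Vale.Agent.P217.Rigid
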