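/-
P217, block RIGID: a functional killing all bounded coefficient vectors and isolating one
additive monomial.
-/
import Vale.Agent.P217.Rigid.Bounded
import Vale.Agent.P217.SpecPos

namespace Vale.Agent.P217.Rigid

open MvPowerSeries

lemma norm_sum_lt {K α : Type*} [NormedField K] [IsUltrametricDist K] (s : Finset α) {f : α → K}
    {B : ℝ} (hB : 0 < B) (h : ∀ a ∈ s, ‖f a‖ < B) : ‖∑ a ∈ s, f a‖ < B :=
  Finset.sum_induction f (fun x => ‖x‖ < B)
    (fun x y hx hy => (IsUltrametricDist.norm_add_le_max x y).trans_lt (max_lt hx hy))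
    (by simpa using hB) h

variable {p h r : ℕ} [Fact p.Prime] {K : Type} [NormedField K] [CharP K p] [IsUltrametricDist K]
  {ι : Type}

/-- The vectors bounded at all the points `w i`. -/
noncomputable def ptsSub (E : Data p h r K ι) (D : ℕ) :
    Submodule K (low E.v_ge (D : ℝ) → K) :=
  bddSub _ (p ^ h) D E.w E.σ fun i => (E.σ_pos i).le

/-- A fixed vector in `ptsSub` supported on high and additive exponents has no additive part. -/
lemma coeff_eq_zero_of_mem (E : Data p h r K ι) {J : Finset (Fin r)}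
    (hres : ResiduesIndependent p h E.v E.σ E.w J) {l0 : Fin r} (hl0 : l0 ∈ J) {b0 D : ℕ}
    (hD : E.v l0 * (p : ℝ) ^ b0 < D) {x : low E.v_ge (D : ℝ) → K} (hx : x ∈ ptsSub E D)
    (hfix : ∀ s, iterateFrobenius K p h (x s) = x s)
    (hsupp : ∀ s, x s ≠ 0 → E.v l0 * (p : ℝ) ^ b0 < wt E.v s.1 ∨
      ∃ l ∈ J, ∃ b : ℕ, s.1 = Finsupp.single l (p ^ b) ∧ wt E.v s.1 = E.v l0 * (p : ℝ) ^ b0) :
    coeff (Finsupp.single l0 (p ^ b0)) (ofFinset _ x) = 0 := by
  classical
  set c := E.v l0 * (p : ℝ) ^ b0 with hc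
  set g : (Fin r →₀ ℕ) → K := fun d => coeff d (ofFinset (low E.v_ge (D : ℝ)) x) with hg
  let b : Fin r → ℕ := fun l => if hl : ∃ b : ℕ, E.v l * (p : ℝ) ^ b = c then hl.choose else 0
  have hp1 : (1 : ℝ) < p := by exact_mod_cast (Fact.out : p.Prime).one_lt
  have hb : ∀ l (k : ℕ), E.v l * (p : ℝ) ^ k = c → b l = k := by
    intro l k hk
    have hl : ∃ b : ℕ, E.v l * (p : ℝ) ^ b = c := ⟨k, hk⟩
    have h1 : E.v l * (p : ℝ) ^ b l = c := by simp only [b, dif_pos hl]; exact hl.choose_spec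
    have h2 : (p : ℝ) ^ b l = (p : ℝ) ^ k :=
      mul_left_cancel₀ (zero_lt_one.trans_le (E.v_ge l)).ne' (h1.trans hk.symm)
    exact pow_right_injective₀ (zero_lt_one.trans hp1) hp1.ne' h2
  have hsingle : ∀ l (k : ℕ), wt E.v (Finsupp.single l (p ^ k)) = E.v l * (p : ℝ) ^ k := by
    intro l k
    show gw E.v _ = _
    rw [gw_single, Nat.cast_pow, mul_comm]
  set T := J.filter fun l => E.v l * (p : ℝ) ^ b l = c with hT
  have hl0T : l0 ∈ T := Finset.mem_filter.2 ⟨hl0, by rw [hb l0 b0 rfl]⟩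
  have hgfix : ∀ d, g d ^ p ^ h = g d := by
    intro d
    simp only [hg]
    by_cases hd : d ∈ (low E.v_ge (D : ℝ))
    · rw [coeff_ofFinset (low E.v_ge (D : ℝ)) x ⟨d, hd⟩, ← iterateFrobenius_def, hfix]
    · rw [coeff_ofFinset_of_notMem (low E.v_ge (D : ℝ)) x hd, zero_pow (pow_ne_zero _ (Fact.out : p.Prime).ne_zero)]
  have key := hres c b (fun l => g (Finsupp.single l (p ^ b l))) (fun l => hgfix _) ?_ l0 hl0
    (Finset.mem_filter.1 hl0T).2
  · simpa [hg, hb l0 b0 rfl] using key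
  intro i
  set f : Fin r → (Fin r →₀ ℕ) := fun l => Finsupp.single l (p ^ b l) with hf
  have hinj : Set.InjOn f T := by
    intro l _ l' _ hll'
    rcases (Finsupp.single_eq_single_iff _ _ _ _).1 hll' with ⟨h1, -⟩ | ⟨h1, -⟩
    · exact h1
    · exact absurd h1 (pow_ne_zero _ (Fact.out : p.Prime).ne_zero)
  have hsub : T.image f ⊆ (low E.v_ge (D : ℝ)) := by
    intro d hd
    obtain ⟨l, hl, rfl⟩ := Finset.mem_image.1 hd
    rw [mem_low]
    show wt E.v _ < _
    rw [hf, hsingle, (Finset.mem_filter.1 hl).2]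
    exact hD
  have hval : val (low E.v_ge (D : ℝ)) (E.w i) x = ∑ d ∈ (low E.v_ge (D : ℝ)), g d * d.prod fun j e => E.w i j ^ e := by
    rw [val_apply, ← Finset.sum_coe_sort (low E.v_ge (D : ℝ))]
    exact Finset.sum_congr rfl fun s _ => by simp only [hg, coeff_ofFinset]
  have hmain : ∑ d ∈ T.image f, (g d * d.prod fun j e => E.w i j ^ e) =
      ∑ l ∈ T, g (f l) * E.w i l ^ p ^ b l := by
    rw [Finset.sum_image hinj]
    exact Finset.sum_congr rfl fun l _ => by simp only [hf]; rw [Finsupp.prod_single_index (h := fun j e => E.w i j ^ e) (pow_zero _)]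
  rw [← Finset.sum_sdiff hsub, hmain] at hval
  have hc0 : 0 < E.σ i ^ c := Real.rpow_pos_of_pos (E.σ_pos i) _
  have hrest : ‖∑ d ∈ (low E.v_ge (D : ℝ)) \ T.image f, g d * d.prod fun j e => E.w i j ^ e‖ < E.σ i ^ c := by
    refine norm_sum_lt _ hc0 fun d hd => ?_
    rw [Finset.mem_sdiff] at hd
    by_cases h0 : g d = 0
    · rw [h0, zero_mul, norm_zero]; exact hc0
    simp only [hg] at h0
    rw [coeff_ofFinset (low E.v_ge (D : ℝ)) x ⟨d, hd.1⟩] at h0
    rcases hsupp ⟨d, hd.1⟩ h0 with hhigh | ⟨l, hl, k, hk, hkc⟩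
    · rw [norm_mul]
      refine lt_of_le_of_lt ((mul_le_of_le_one_left (norm_nonneg _) ?_).trans
        (norm_prod_pow_le (E.σ_pos i) (E.w_le i) d))
        (Real.rpow_lt_rpow_of_exponent_gt (E.σ_pos i) (E.σ_lt i) hhigh)
      exact norm_le_one_of_fixed E.hh (by rw [iterateFrobenius_def, hgfix])
    · exfalso
      simp only at hk hkc
      have h1 : E.v l * (p : ℝ) ^ k = c := by rw [← hsingle, ← hk]; exact hkc
      refine hd.2 (Finset.mem_image.2 ⟨l, Finset.mem_filter.2 ⟨hl, ?_⟩, ?_⟩)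
      · rw [hb l k h1]; exact h1
      · rw [hk, hf]; simp only [hb l k h1]
  have htot : ‖val (low E.v_ge (D : ℝ)) (E.w i) x‖ < E.σ i ^ c := by
    refine (norm_val_le (low E.v_ge (D : ℝ)) E.hh hx hfix i (E.σ_pos i)).trans_lt ?_
    rw [← Real.rpow_natCast]
    exact Real.rpow_lt_rpow_of_exponent_gt (E.σ_pos i) (E.σ_lt i) hD
  have e : ∑ l ∈ T, g (f l) * E.w i l ^ p ^ b l =
      val (low E.v_ge (D : ℝ)) (E.w i) x + -∑ d ∈ (low E.v_ge (D : ℝ)) \ T.image f, g d * d.prod fun j e => E.w i j ^ e := by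
    rw [hval]; abel
  rw [hT] at e
  show ‖∑ l ∈ T, g (f l) * E.w i l ^ p ^ b l‖ < _
  rw [hT, e]
  refine (IsUltrametricDist.norm_add_le_max _ _).trans_lt (max_lt htot ?_)
  rw [norm_neg]
  exact hrest

/-- The isolating functional. -/
theorem exists_functional (E : Data p h r K ι) {J : Finset (Fin r)}
    (hres : ResiduesIndependent p h E.v E.σ E.w J) {l0 : Fin r} (hl0 : l0 ∈ J) {b0 D : ℕ}
    (hD : E.v l0 * (p : ℝ) ^ b0 < D) :
    ∃ ℓ : low E.v_ge (D : ℝ) → K, (∀ s, iterateFrobenius K p h (ℓ s) = ℓ s) ∧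
      (∀ s, s.1 = Finsupp.single l0 (p ^ b0) → ℓ s = 1) ∧
      (∀ s, E.v l0 * (p : ℝ) ^ b0 < wt E.v s.1 → ℓ s = 0) ∧
      (∀ s, ∀ l ∈ J, ∀ b : ℕ, s.1 = Finsupp.single l (p ^ b) →
        wt E.v s.1 = E.v l0 * (p : ℝ) ^ b0 → s.1 ≠ Finsupp.single l0 (p ^ b0) → ℓ s = 0) ∧
      ∀ x ∈ ptsSub E D, ∑ s, x s * ℓ s = 0 := by
  classical
  set φ := iterateFrobenius K p h with hφ
  set c := E.v l0 * (p : ℝ) ^ b0 with hc
  set S := low E.v_ge (D : ℝ) with hS
  set V1 := ptsSub E D with hV1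
  have hd0wt : wt E.v (Finsupp.single l0 (p ^ b0)) = c := by
    show gw E.v _ = _
    rw [gw_single, Nat.cast_pow, mul_comm]
  have hd0 : Finsupp.single l0 (p ^ b0) ∈ S := mem_low.2 (lt_of_eq_of_lt hd0wt hD)
  set s0 : S := ⟨_, hd0⟩ with hs0
  let special : S → Prop := fun s => c < wt E.v s.1 ∨
    ∃ l ∈ J, ∃ b : ℕ, s.1 = Finsupp.single l (p ^ b) ∧ wt E.v s.1 = c
  have hspec0 : special s0 := Or.inr ⟨l0, hl0, b0, rfl, hd0wt⟩
  let U0 : Submodule K (S → K) :=
    { carrier := {x | x s0 = 0 ∧ ∀ s, ¬ special s → x s = 0}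
      add_mem' := fun {x y} hx hy => ⟨by simp [hx.1, hy.1], fun s hs => by simp [hx.2 s hs, hy.2 s hs]⟩
      zero_mem' := ⟨rfl, fun _ _ => rfl⟩
      smul_mem' := fun a x hx => ⟨by simp [hx.1], fun s hs => by simp [hx.2 s hs]⟩ }
  let U : Submodule K (S → K) :=
    { carrier := {x | ∀ s, ¬ special s → x s = 0}
      add_mem' := fun {x y} hx hy s hs => by simp [hx s hs, hy s hs]
      zero_mem' := fun _ _ => rfl
      smul_mem' := fun a x hx s hs => by simp [hx s hs] }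
  have hvan : ∀ x ∈ V1 ⊓ U, x s0 = 0 := by
    intro x hx
    have hst : ∀ y ∈ V1 ⊓ U, (fun s => φ (y s)) ∈ V1 ⊓ U := fun y hy =>
      ⟨bddSub_stable S hy.1, fun s hs => by simp [hy.2 s hs]⟩
    have hle : Submodule.span K {g : S → K | g ∈ V1 ⊓ U ∧ ∀ s, φ (g s) = g s} ≤
        (LinearMap.proj (R := K) (φ := fun _ : S => K) s0).ker := by
      rw [Submodule.span_le]
      rintro g ⟨⟨hg1, hg2⟩, hgfix⟩
      show g s0 = 0
      have := coeff_eq_zero_of_mem E hres hl0 hD hg1 hgfix fun s hs => by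
        by_contra hno
        exact hs (hg2 s hno)
      rwa [coeff_ofFinset S g s0] at this
    exact hle (mem_span_fixed φ hst hx)
  have hnot : (Pi.single s0 1 : S → K) ∉ V1 ⊔ U0 := by
    intro hmem
    obtain ⟨a, ha, u, hu, hau⟩ := Submodule.mem_sup.1 hmem
    have h1 : a ∈ U := by
      intro s hs
      have h2 := congrFun hau s
      have h3 : s ≠ s0 := fun h => hs (h ▸ hspec0)
      simpa [hu.2 s hs, h3] using h2
    have h2 := congrFun hau s0
    simp [hu.1, hvan a ⟨ha, h1⟩] at h2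
  obtain ⟨F, hF0, hF⟩ := Submodule.exists_le_ker_of_notMem hnot
  let L : Submodule K (S → K) :=
    { carrier := {ℓ | (∀ x ∈ V1, ∑ s, x s * ℓ s = 0) ∧ ∀ s, special s → s ≠ s0 → ℓ s = 0}
      add_mem' := fun {a b} ha hb => ⟨fun x hx => by
          simp only [Pi.add_apply, mul_add, Finset.sum_add_distrib]
          rw [ha.1 x hx, hb.1 x hx, add_zero],
        fun s h1 h2 => by simp [ha.2 s h1 h2, hb.2 s h1 h2]⟩
      zero_mem' := ⟨fun x _ => by simp, fun _ _ _ => rfl⟩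
      smul_mem' := fun a ℓ hℓ => ⟨fun x hx => by
          simp only [Pi.smul_apply, smul_eq_mul, mul_left_comm _ a, ← Finset.mul_sum]
          rw [hℓ.1 x hx, mul_zero],
        fun s h1 h2 => by simp [hℓ.2 s h1 h2]⟩ }
  set ℓ0 : S → K := fun s => F (Pi.single s 1) with hℓ0
  have hFsum : ∀ x : S → K, F x = ∑ s, x s * ℓ0 s := fun x => by
    rw [LinearMap.pi_apply_eq_sum_univ F x]
    exact Finset.sum_congr rfl fun s _ => by
      rw [smul_eq_mul, hℓ0]
      congr 2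
      funext j
      rw [Pi.single_apply]
      simp [eq_comm]
  have hℓ0L : ℓ0 ∈ L := by
    refine ⟨fun x hx => ?_, fun s hs hne => ?_⟩
    · rw [← hFsum]
      exact LinearMap.mem_ker.1 (hF (Submodule.mem_sup_left hx))
    · refine LinearMap.mem_ker.1 (hF (Submodule.mem_sup_right ⟨?_, fun t ht => ?_⟩))
      · simp [Ne.symm hne]
      · simp [show t ≠ s from fun h => ht (h ▸ hs)]
  have hLφ : ∀ ℓ ∈ L, (fun s => φ (ℓ s)) ∈ L := by
    rintro ℓ ⟨h1, h2⟩
    refine ⟨fun x hx => ?_, fun s hs hne => by simp [h2 s hs hne]⟩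
    let Λ : (S → K) →ₗ[K] K :=
      { toFun := fun x => ∑ s, x s * φ (ℓ s)
        map_add' := fun a b => by simp [add_mul, Finset.sum_add_distrib]
        map_smul' := fun a b => by simp [Finset.mul_sum, mul_assoc] }
    have hle : Submodule.span K {g : S → K | g ∈ V1 ∧ ∀ s, φ (g s) = g s} ≤ Λ.ker := by
      rw [Submodule.span_le]
      rintro g ⟨hg, hgfix⟩
      show ∑ s, g s * φ (ℓ s) = 0
      have h3 := congrArg φ (h1 g hg)
      simpa [map_sum, hgfix] using h3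
    exact hle (mem_span_fixed φ (fun y hy => bddSub_stable S hy) hx)
  obtain ⟨g, hgL, hgfix, hg0⟩ : ∃ g, g ∈ L ∧ (∀ s, φ (g s) = g s) ∧ g s0 ≠ 0 := by
    by_contra hno
    simp only [not_exists, not_and, not_not] at hno
    have hle : Submodule.span K {g : S → K | g ∈ L ∧ ∀ s, φ (g s) = g s} ≤
        (LinearMap.proj (R := K) (φ := fun _ : S => K) s0).ker := by
      rw [Submodule.span_le]
      exact fun g hg => hno g hg.1 hg.2
    exact hF0 (hle (mem_span_fixed φ hLφ hℓ0L))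
  have hL' : ((g s0)⁻¹ • g) ∈ L := L.smul_mem _ hgL
  refine ⟨(g s0)⁻¹ • g, fun s => by simp [map_inv₀, hgfix], fun s hs => ?_,
    fun s hs => hL'.2 s (Or.inl hs) ?_,
    fun s l hl b hsl hwt hne => hL'.2 s (Or.inr ⟨l, hl, b, hsl, hwt⟩) fun h => hne (by rw [h]),
    hL'.1⟩
  · rw [show s = s0 from Subtype.ext hs, Pi.smul_apply, smul_eq_mul, inv_mul_cancel₀ hg0]
  · rintro rfl
    exact absurd hd0wt hs.ne'

end Vale.Agent.P217.Rigid
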