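/-
P217, block RIGID: composing a series with the group law in two groups of variables.
-/
import Vale.Agent.P217.Rigid.Orbit

namespace Vale.Agent.P217.Rigid

open MvPowerSeries

variable {r : ℕ}

/-- An exponent vector in two groups of variables. -/
noncomputable def pair (e d : Fin r →₀ ℕ) : (Fin r ⊕ Fin r) →₀ ℕ :=
  Finsupp.sumFinsuppEquivProdFinsupp.symm (e, d)

@[simp] lemma pair_inl (e d : Fin r →₀ ℕ) (l : Fin r) : pair e d (Sum.inl l) = e l := by
  simp [pair]

@[simp] lemma pair_inr (e d : Fin r →₀ ℕ) (l : Fin r) : pair e d (Sum.inr l) = d l := by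
  simp [pair]

lemma pair_injective {e d e' d' : Fin r →₀ ℕ} (h : pair e d = pair e' d') : e = e' ∧ d = d' :=
  Prod.ext_iff.1 (Finsupp.sumFinsuppEquivProdFinsupp.symm.injective h)

lemma gw_pair (v : Fin r → ℝ) (e d : Fin r →₀ ℕ) :
    gw (Sum.elim v v) (pair e d) = wt v e + wt v d := by
  simp [gw, wt, Fintype.sum_sum_type]

lemma prod_pair {K : Type*} [CommMonoid K] (e d : Fin r →₀ ℕ) (a b : Fin r → K) :
    ((pair e d).prod fun i k => Sum.elim a b i ^ k) =
      (e.prod fun i k => a i ^ k) * d.prod fun i k => b i ^ k := by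
  simp [Finsupp.prod_fintype, Fintype.prod_sum_type]

variable {K : Type*} [CommRing K]

/-- `g` agrees with `g0` in weight `D`, and both start there. -/
def Lead {σ : Type*} [Fintype σ] (u : σ → ℝ) (D : ℝ) (g g0 : MvPowerSeries σ K) : Prop :=
  (∀ x, gw u x < D → coeff x g = 0 ∧ coeff x g0 = 0) ∧ ∀ x, gw u x = D → coeff x g = coeff x g0

section Lead

variable {σ : Type*} [Fintype σ] {u : σ → ℝ}

lemma Lead.one (hu : ∀ i, 1 ≤ u i) : Lead u 0 (1 : MvPowerSeries σ K) 1 :=
  ⟨fun x hx => absurd hx (not_lt.2 (gw_nonneg hu x)), fun _ _ => rfl⟩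

lemma Lead.mul {D1 D2 : ℝ} {g1 h1 g2 h2 : MvPowerSeries σ K} (H1 : Lead u D1 g1 h1)
    (H2 : Lead u D2 g2 h2) : Lead u (D1 + D2) (g1 * g2) (h1 * h2) := by
  classical
  refine ⟨fun x hx => ?_, fun x hx => ?_⟩
  · rw [coeff_mul, coeff_mul]
    constructor <;>
    · refine Finset.sum_eq_zero fun a ha => ?_
      rw [Finset.HasAntidiagonal.mem_antidiagonal] at ha
      have hw : gw u a.1 + gw u a.2 < D1 + D2 := by rwa [← gw_add, ha]
      rcases lt_or_ge (gw u a.1) D1 with h | h
      · simp [(H1.1 _ h).1, (H1.1 _ h).2]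
      · simp [(H2.1 a.2 (by linarith)).1, (H2.1 a.2 (by linarith)).2]
  · rw [coeff_mul, coeff_mul]
    refine Finset.sum_congr rfl fun a ha => ?_
    rw [Finset.HasAntidiagonal.mem_antidiagonal] at ha
    have hw : gw u a.1 + gw u a.2 = D1 + D2 := by rwa [← gw_add, ha]
    rcases lt_trichotomy (gw u a.1) D1 with h | h | h
    · simp [(H1.1 _ h).1, (H1.1 _ h).2]
    · rw [H1.2 _ h, H2.2 a.2 (by linarith)]
    · simp [(H2.1 a.2 (by linarith)).1, (H2.1 a.2 (by linarith)).2]

lemma Lead.pow (hu : ∀ i, 1 ≤ u i) {D : ℝ} {g g0 : MvPowerSeries σ K} (H : Lead u D g g0) :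
    ∀ k : ℕ, Lead u (k * D) (g ^ k) (g0 ^ k)
  | 0 => by simpa using Lead.one (K := K) hu
  | k + 1 => by
    rw [Nat.cast_succ, add_one_mul, pow_succ, pow_succ]
    exact (Lead.pow hu H k).mul H

lemma Lead.prod (hu : ∀ i, 1 ≤ u i) {ι : Type*} (s : Finset ι) {D : ι → ℝ}
    {g g0 : ι → MvPowerSeries σ K} (H : ∀ i ∈ s, Lead u (D i) (g i) (g0 i)) :
    Lead u (∑ i ∈ s, D i) (∏ i ∈ s, g i) (∏ i ∈ s, g0 i) := by
  classical
  induction s using Finset.induction_on with
  | empty => simpa using Lead.one (K := K) hu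
  | insert i s hi ih =>
    rw [Finset.sum_insert hi, Finset.prod_insert hi, Finset.prod_insert hi]
    exact (H i (Finset.mem_insert_self _ _)).mul (ih fun j hj => H j (Finset.mem_insert_of_mem hj))

end Lead

/-- The two variables with index `l`. -/
noncomputable def two (l : Fin r) : Fin 2 → MvPowerSeries (Fin r ⊕ Fin r) K :=
  ![X (Sum.inl l), X (Sum.inr l)]

lemma two_const (l : Fin r) (i : Fin 2) :
    constantCoeff (two (K := K) l i) = 0 := by fin_cases i <;> simp [two]

/-- The group law in the pair of variables with index `l`. -/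
noncomputable def law2 (H : MvPowerSeries (Fin 2) K) (l : Fin r) :
    MvPowerSeries (Fin r ⊕ Fin r) K :=
  MvPowerSeries.subst (two l) H

lemma law2_const {H : MvPowerSeries (Fin 2) K} (H0 : constantCoeff H = 0) (l : Fin r) :
    constantCoeff (law2 H l) = 0 :=
  constantCoeff_subst_eq_zero (hasSubst_of_constantCoeff_zero (two_const l)) (two_const l) H0

lemma monomial_prod {σ ι : Type*} (s : Finset ι) (n : ι → σ →₀ ℕ) (c : ι → K) :
    ∏ i ∈ s, monomial (n i) (c i) = monomial (∑ i ∈ s, n i) (∏ i ∈ s, c i) := by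
  classical
  induction s using Finset.induction_on with
  | empty => simp
  | insert i s hi ih =>
    rw [Finset.prod_insert hi, Finset.sum_insert hi, Finset.prod_insert hi, ih,
      monomial_mul_monomial]

/-- Coefficients of `∏ (X_l + Y_l)^(k_l)`. -/
lemma coeff_binom (k e d : Fin r →₀ ℕ) :
    coeff (pair e d)
        (∏ l, (X (Sum.inl l) + X (Sum.inr l) : MvPowerSeries (Fin r ⊕ Fin r) K) ^ k l) =
      if e + d = k then ∏ l, ((k l).choose (d l) : K) else 0 := by
  classical
  have hpow : ∀ l, (X (Sum.inl l) + X (Sum.inr l) : MvPowerSeries (Fin r ⊕ Fin r) K) ^ k l =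
      ∑ j ∈ Finset.range (k l + 1), monomial
        (Finsupp.single (Sum.inr l) j + Finsupp.single (Sum.inl l) (k l - j))
        ((k l).choose j : K) := by
    intro l
    rw [add_comm, add_pow]
    refine Finset.sum_congr rfl fun j _ => ?_
    rw [X_pow_eq, X_pow_eq, monomial_mul_monomial, one_mul, ← map_natCast (C (σ := Fin r ⊕ Fin r)
      (R := K)), ← monomial_zero_eq_C_apply, monomial_mul_monomial, add_zero, one_mul]
  simp only [hpow]
  rw [Finset.prod_univ_sum, map_sum]
  simp only [monomial_prod, coeff_monomial]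
  have hsum : ∀ x : Fin r → ℕ, ∀ l,
      ((∑ i, (Finsupp.single (Sum.inr i : Fin r ⊕ Fin r) (x i) +
          Finsupp.single (Sum.inl i) (k i - x i)) : (Fin r ⊕ Fin r) →₀ ℕ)) (Sum.inl l) = k l - x l ∧
      ((∑ i, (Finsupp.single (Sum.inr i : Fin r ⊕ Fin r) (x i) +
          Finsupp.single (Sum.inl i) (k i - x i)) : (Fin r ⊕ Fin r) →₀ ℕ)) (Sum.inr l) = x l := by
    intro x l
    constructor <;>
    · rw [Finsupp.finsetSum_apply, Finset.sum_eq_single l (fun i _ hi => by simp [hi])
        (fun h => absurd (Finset.mem_univ l) h)]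
      simp
  split_ifs with hed
  · rw [Finset.sum_eq_single (⇑d)]
    · rw [if_pos]
      ext i
      rcases i with l | l
      · rw [pair_inl, (hsum _ l).1, ← hed, Finsupp.add_apply, Nat.add_sub_cancel]
      · rw [pair_inr, (hsum _ l).2]
    · intro x _ hx
      rw [if_neg]
      intro h
      refine hx (funext fun l => ?_)
      have h1 := DFunLike.congr_fun h (Sum.inr l)
      rwa [pair_inr, (hsum x l).2, eq_comm] at h1
    · intro h
      refine absurd ?_ h
      rw [Fintype.mem_piFinset]
      intro l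
      rw [Finset.mem_range, ← hed, Finsupp.add_apply]
      omega
  · refine Finset.sum_eq_zero fun x hx => if_neg fun h => hed ?_
    ext l
    have h1 := DFunLike.congr_fun h (Sum.inl l)
    have h2 := DFunLike.congr_fun h (Sum.inr l)
    rw [pair_inl, (hsum x l).1] at h1
    rw [pair_inr, (hsum x l).2] at h2
    have h3 := Finset.mem_range.1 (Fintype.mem_piFinset.1 hx l)
    rw [Finsupp.add_apply]
    omega

section Weight

variable {v : Fin r → ℝ}

lemma lead_law2 {H : MvPowerSeries (Fin 2) K} (H0 : constantCoeff H = 0)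
    (HX : coeff (Finsupp.single 0 1) H = 1) (HY : coeff (Finsupp.single 1 1) H = 1)
    (hv : ∀ l, 1 ≤ v l) (l : Fin r) :
    Lead (Sum.elim v v) (v l) (law2 H l) (X (Sum.inl l) + X (Sum.inr l)) := by
  classical
  set H2 := H - X 0 - X 1 with hH2
  have hsmall : ∀ k : Fin 2 →₀ ℕ, k.degree < 2 → coeff k H2 = 0 := by
    intro k hk
    have h2 : k.degree = k 0 + k 1 := by rw [Finsupp.degree_eq_sum, Fin.sum_univ_two]
    have hcases : k = 0 ∨ k = Finsupp.single 0 1 ∨ k = Finsupp.single 1 1 := by
      rcases Nat.eq_zero_or_pos (k 0) with h0 | h0 <;> rcases Nat.eq_zero_or_pos (k 1) with h1 | h1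
      · left; ext i; fin_cases i <;> simp_all
      · right; right; ext i; fin_cases i
        · simp [h0]
        · simp only [Finsupp.single_apply]; norm_num; omega
      · right; left; ext i; fin_cases i
        · simp only [Finsupp.single_apply]; norm_num; omega
        · simp [h1]
      · omega
    rcases hcases with rfl | rfl | rfl <;>
      simp [hH2, coeff_zero_eq_constantCoeff_apply, H0, HX, HY, coeff_X, Finsupp.single_eq_single_iff]
  have ht := hasSubst_of_constantCoeff_zero (two_const (K := K) l)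
  have hrest : ∀ x, gw (Sum.elim v v) x ≤ v l →
      coeff x (MvPowerSeries.subst (two (K := K) l) H2) = 0 := by
    intro x hx
    rw [coeff_subst ht]
    refine finsum_eq_zero_of_forall_eq_zero fun k => ?_
    by_cases hk : k.degree < 2
    · rw [hsmall k hk, zero_smul]
    rw [show (k.prod fun i n => two (K := K) l i ^ n) =
        monomial (Finsupp.single (Sum.inl l) (k 0) + Finsupp.single (Sum.inr l) (k 1)) (1 : K) by
      rw [Finsupp.prod_fintype _ _ (fun i => pow_zero _), Fin.prod_univ_two]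
      simp [two, X_pow_eq, monomial_mul_monomial]]
    rw [coeff_monomial, if_neg, smul_zero]
    rintro rfl
    rw [gw_add, gw_single, gw_single] at hx
    simp only [Sum.elim_inl, Sum.elim_inr] at hx
    have h2 : (2 : ℝ) ≤ (k 0 : ℝ) + k 1 := by
      have : 2 ≤ k 0 + k 1 := by
        rw [Finsupp.degree_eq_sum, Fin.sum_univ_two] at hk; omega
      exact_mod_cast this
    nlinarith [hv l]
  have hsplit : law2 H l = X (Sum.inl l) + X (Sum.inr l) + MvPowerSeries.subst (two (K := K) l) H2 := by
    have : H = X 0 + X 1 + H2 := by rw [hH2]; ring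
    conv_lhs => rw [law2, this]
    rw [subst_add ht, subst_add ht, subst_X ht, subst_X ht]
    rfl
  refine ⟨fun x hx => ?_, fun x hx => ?_⟩
  · have h1 : coeff x (X (Sum.inl l) + X (Sum.inr l) : MvPowerSeries (Fin r ⊕ Fin r) K) = 0 := by
      rw [map_add, coeff_X, coeff_X, if_neg, if_neg, add_zero] <;>
      · rintro rfl
        rw [gw_single] at hx
        simp at hx
    exact ⟨by rw [hsplit, map_add, h1, hrest x hx.le, add_zero], h1⟩
  · rw [hsplit, map_add, hrest x hx.le, add_zero]

/-- Coefficients of the composite in total weight at most `W`. -/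
theorem coeff_composite {H : MvPowerSeries (Fin 2) K} (H0 : constantCoeff H = 0)
    (HX : coeff (Finsupp.single 0 1) H = 1) (HY : coeff (Finsupp.single 1 1) H = 1)
    (hv : ∀ l, 1 ≤ v l) {f : MvPowerSeries (Fin r) K} {W : ℝ}
    (hf : ∀ k, wt v k < W → coeff k f = 0) (e d : Fin r →₀ ℕ) :
    (wt v e + wt v d < W → coeff (pair e d) (MvPowerSeries.subst (law2 H) f) = 0) ∧
    (wt v e + wt v d = W → coeff (pair e d) (MvPowerSeries.subst (law2 H) f) =
      coeff (e + d) f * ∏ l, (((e + d) l).choose (d l) : K)) := by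
  classical
  have hu : ∀ i, 1 ≤ Sum.elim v v i := by rintro (l | l) <;> simp [hv]
  have hb := hasSubst_of_constantCoeff_zero (law2_const (r := r) H0)
  have hlead : ∀ k : Fin r →₀ ℕ, Lead (Sum.elim v v) (wt v k) (∏ l, law2 H l ^ k l)
      (∏ l, (X (Sum.inl l) + X (Sum.inr l) : MvPowerSeries (Fin r ⊕ Fin r) K) ^ k l) := fun k =>
    Lead.prod hu Finset.univ fun l _ => (lead_law2 H0 HX HY hv l).pow hu (k l)
  have hterm : ∀ k, wt v e + wt v d < wt v k →
      coeff (pair e d) (∏ l, law2 H l ^ k l) = 0 := fun k hk =>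
    ((hlead k).1 _ (by rwa [gw_pair])).1
  have hprod : ∀ k : Fin r →₀ ℕ, (k.prod fun l n => law2 H l ^ n) = ∏ l, law2 H l ^ k l :=
    fun k => Finsupp.prod_fintype _ _ fun i => pow_zero _
  rw [coeff_subst hb]
  simp only [hprod, smul_eq_mul]
  refine ⟨fun hlt => finsum_eq_zero_of_forall_eq_zero fun k => ?_, fun heq => ?_⟩
  · rcases lt_or_ge (wt v k) W with h | h
    · rw [hf k h, zero_mul]
    · rw [hterm k (hlt.trans_le h), mul_zero]
  · rw [finsum_eq_single _ (e + d) fun k hk => ?_]
    · rw [(hlead _).2 _ (by rw [gw_pair]; exact (gw_add v e d).symm), coeff_binom, if_pos rfl]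
    · rcases lt_trichotomy (wt v k) W with h | h | h
      · rw [hf k h, zero_mul]
      · rw [(hlead k).2 _ (by rw [gw_pair, heq, h]), coeff_binom, if_neg (Ne.symm hk), mul_zero]
      · rw [hterm k (heq.trans_lt h), mul_zero]

end Weight

end Vale.Agent.P217.Rigid
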