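/-
P217, block RIGID: lowering the weight of a vanishing series.
-/
import Vale.Agent.P217.Rigid.Pair
import Vale.Agent.P217.Rigid.Functional

namespace Vale.Agent.P217.Rigid

open MvPowerSeries

variable {p h r : ℕ} [Fact p.Prime] {K : Type} [NormedField K] [CharP K p] {ι : Type}

/-- Composite of `f` with the group law in two groups of variables. -/
noncomputable def composite (E : Data p h r K ι) (f : MvPowerSeries (Fin r) K) :
    MvPowerSeries (Fin r ⊕ Fin r) K :=
  MvPowerSeries.subst (law2 E.H) f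

/-- Coefficient of a monomial in the second group of variables. -/
noncomputable def slice (E : Data p h r K ι) (f : MvPowerSeries (Fin r) K) (d : Fin r →₀ ℕ) :
    MvPowerSeries (Fin r) K :=
  fun e => coeff (pair e d) (composite E f)

/-- The series obtained with a functional on the second group of variables. -/
noncomputable def shift (E : Data p h r K ι) (f : MvPowerSeries (Fin r) K) {D : ℕ}
    (ℓ : low E.v_ge (D : ℝ) → K) : MvPowerSeries (Fin r) K :=
  fun e => ∑ s, ℓ s * coeff (pair e s.1) (composite E f)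

lemma fixed_law2 (E : Data p h r K ι) (l : Fin r) :
    Fixed (iterateFrobenius K p h) (law2 E.H l) :=
  E.H_fixed.subst (two_const l) fun i => by fin_cases i <;> exact fixed_X _

lemma fixed_composite (E : Data p h r K ι) {f : MvPowerSeries (Fin r) K}
    (hf : Fixed (iterateFrobenius K p h) f) : Fixed (iterateFrobenius K p h) (composite E f) :=
  hf.subst (law2_const E.H0) (fixed_law2 E)

lemma fixed_slice (E : Data p h r K ι) {f : MvPowerSeries (Fin r) K}
    (hf : Fixed (iterateFrobenius K p h) f) (d : Fin r →₀ ℕ) :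
    Fixed (iterateFrobenius K p h) (slice E f d) :=
  fixed_iff.2 fun e => (fixed_composite E hf).coeff (pair e d)

lemma fixed_shift (E : Data p h r K ι) {f : MvPowerSeries (Fin r) K}
    (hf : Fixed (iterateFrobenius K p h) f) {D : ℕ} {ℓ : low E.v_ge (D : ℝ) → K}
    (hℓ : ∀ s, iterateFrobenius K p h (ℓ s) = ℓ s) :
    Fixed (iterateFrobenius K p h) (shift E f ℓ) :=
  fixed_iff.2 fun e => by
    show iterateFrobenius K p h (∑ s, ℓ s * coeff (pair e s.1) (composite E f)) = _
    simp only [map_sum, map_mul, hℓ, (fixed_composite E hf).coeff]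
    rfl

variable [CompleteSpace K] [IsUltrametricDist K]

lemma ev_X {σ : Type*} [Fintype σ] (i : σ) (a : σ → K) : ev (X i) a = a i := by
  classical
  rw [tsum_finset {Finsupp.single i 1} fun d hd => by
    rw [coeff_X, if_neg]; simpa using hd]
  rw [Finset.sum_singleton, coeff_X, if_pos rfl, one_mul,
    Finsupp.prod_single_index (h := fun j e => a j ^ e) (pow_zero _), pow_one]

/-- The coefficient vectors of the slices at an orbit point are bounded. -/
lemma slices_mem [Finite ι] (E : Data p h r K ι) {f : MvPowerSeries (Fin r) K}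
    (hf : Fixed (iterateFrobenius K p h) f) (hvan : E.Vanish f) (D : ℕ) {m : ℕ}
    (c : Fin m → ι) (R : Fin m → ℕ) :
    (fun s : low E.v_ge (D : ℝ) => ev (slice E f s.1) (E.orbit c R)) ∈ ptsSub E D := by
  classical
  obtain ⟨τ, hτ, hτ1, hσ⟩ := E.exists_sigma_le
  intro i
  refine ⟨1, 0, zero_le_one, fun N _ => ?_⟩
  set η := E.orbit c R with hη
  set z : Fin r → K := fun l => E.w i l ^ (p ^ h) ^ N with hz
  have hηle : ∀ l, ‖η l‖ ≤ τ ^ E.v l := E.orbit_le hτ hτ1 hσ c R
  set s : ℝ := E.σ i ^ (p ^ h) ^ N with hs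
  have hs0 : 0 < s := pow_pos (E.σ_pos i) _
  have hs1 : s < 1 := pow_lt_one₀ (E.σ_pos i).le (E.σ_lt i)
    (pow_ne_zero _ (pow_ne_zero _ (Fact.out : p.Prime).ne_zero))
  have hzle : ∀ l, ‖z l‖ ≤ s ^ E.v l := fun l => E.w_pow_le i N l
  have hzτ : ∀ l, ‖z l‖ ≤ τ ^ E.v l := fun l => E.w_pow_le_of_le hσ i N l
  set u : Fin r ⊕ Fin r → ℝ := Sum.elim E.v E.v with hu
  have hu1 : ∀ j, 1 ≤ u j := by rintro (l | l) <;> simp [hu, E.v_ge]
  have ha : ∀ j, ‖Sum.elim η z j‖ ≤ τ ^ u j := by
    rintro (l | l)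
    · simpa [hu] using hηle l
    · simpa [hu] using hzτ l
  have hΨ := fixed_composite E hf
  have hev : ev (composite E f) (Sum.elim η z) = 0 := by
    rw [composite, ev_subst E.hh hf (fixed_law2 E) (law2_const E.H0) hu1 hτ hτ1 ha]
    have hl : (fun l => ev (law2 E.H l) (Sum.elim η z)) = fun l => ev E.H ![η l, z l] := by
      funext l
      rw [law2, ev_subst E.hh E.H_fixed (fun j => by fin_cases j <;> exact fixed_X _) (two_const l)
        hu1 hτ hτ1 ha]
      congr 1
      funext j
      fin_cases j <;> simp [two, ev_X]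
    rw [hl, hη, hz, ← E.orbit_snoc c R i N]
    exact hvan _ _ _
  obtain ⟨M, hM⟩ := exists_pow_lt_of_lt_one (pow_pos hs0 D) hτ1
  set LM := low E.v_ge (M : ℝ) with hLM
  set LD := low E.v_ge (D : ℝ) with hLD
  set S := (LM ×ˢ LD).image fun x => pair x.1 x.2 with hS
  have hS2 : ‖∑ x ∈ S, coeff x (composite E f) * x.prod fun j e => Sum.elim η z j ^ e‖ ≤ s ^ D := by
    have h1 := norm_ev_sub_le (hΨ.integral E.hh) hu1 hτ hτ1 ha S (pow_nonneg hs0.le D)
      fun x hx => ?_
    · rwa [hev, zero_sub, norm_neg] at h1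
    obtain ⟨⟨e, d⟩, rfl⟩ :=
      (Finsupp.sumFinsuppEquivProdFinsupp (α := Fin r) (β := Fin r) (γ := ℕ)).symm.surjective x
    change ‖coeff (pair e d) _ * (pair e d).prod _‖ ≤ _
    rw [prod_pair, norm_mul, norm_mul]
    refine (mul_le_of_le_one_left (mul_nonneg (norm_nonneg _) (norm_nonneg _))
      (hΨ.integral E.hh _)).trans ?_
    have he := norm_prod_pow_le hτ hηle e
    have hd := norm_prod_pow_le hs0 hzle d
    have he1 : τ ^ gw E.v e ≤ 1 := Real.rpow_le_one hτ.le hτ1.le (gw_nonneg E.v_ge e)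
    have hd1 : s ^ gw E.v d ≤ 1 := Real.rpow_le_one hs0.le hs1.le (gw_nonneg E.v_ge d)
    have hout : ¬ (e ∈ LM ∧ d ∈ LD) := fun hh' => hx (Finset.mem_image.2
      ⟨(e, d), Finset.mem_product.2 hh', rfl⟩)
    rcases not_and_or.1 hout with h' | h'
    · rw [hLM, mem_low, not_lt] at h'
      refine (mul_le_of_le_one_right (norm_nonneg _) (hd.trans hd1)).trans (he.trans ?_)
      refine (Real.rpow_le_rpow_of_exponent_ge hτ hτ1.le h').trans ?_
      rw [Real.rpow_natCast]
      exact hM.le
    · rw [hLD, mem_low, not_lt] at h'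
      refine (mul_le_of_le_one_left (norm_nonneg _) (he.trans he1)).trans (hd.trans ?_)
      refine (Real.rpow_le_rpow_of_exponent_ge hs0 hs1.le h').trans ?_
      rw [Real.rpow_natCast]
  have hinj : Set.InjOn (fun x : (Fin r →₀ ℕ) × (Fin r →₀ ℕ) => pair x.1 x.2)
      (LM ×ˢ LD : Finset _) := fun x _ y _ hxy =>
    Prod.ext (pair_injective hxy).1 (pair_injective hxy).2
  rw [hS, Finset.sum_image hinj, Finset.sum_product_right] at hS2
  simp only [prod_pair] at hS2
  set T : (Fin r →₀ ℕ) → K := fun d =>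
    ∑ e ∈ LM, coeff (pair e d) (composite E f) * e.prod fun j k => η j ^ k with hT
  have hS3 : ‖∑ d ∈ LD, T d * d.prod fun j k => z j ^ k‖ ≤ s ^ D := by
    refine le_of_eq_of_le (congrArg _ ?_) hS2
    exact Finset.sum_congr rfl fun d _ => by
      rw [hT, Finset.sum_mul]
      exact Finset.sum_congr rfl fun e _ => mul_assoc _ _ _
  rw [val_apply]
  rw [Finset.sum_coe_sort LD fun d => ev (slice E f d) η * d.prod fun j k => z j ^ k]
  have hdiff : ‖∑ d ∈ LD, (ev (slice E f d) η - T d) * d.prod fun j k => z j ^ k‖ ≤ s ^ D := by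
    refine IsUltrametricDist.norm_sum_le_of_forall_le_of_nonneg (pow_nonneg hs0.le D) fun d _ => ?_
    rw [norm_mul]
    refine (mul_le_of_le_one_right (norm_nonneg _)
      ((norm_prod_pow_le hs0 hzle d).trans
        (Real.rpow_le_one hs0.le hs1.le (gw_nonneg E.v_ge d)))).trans ?_
    have h1 := norm_ev_sub_low_le ((fixed_slice E hf d).integral E.hh) E.v_ge hτ hτ1 hηle (M : ℝ)
    refine le_trans h1 ?_
    rw [Real.rpow_natCast]
    exact hM.le
  have e : ∑ d ∈ LD, ev (slice E f d) η * (d.prod fun j k => z j ^ k) =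
      (∑ d ∈ LD, (ev (slice E f d) η - T d) * d.prod fun j k => z j ^ k) +
        ∑ d ∈ LD, T d * d.prod fun j k => z j ^ k := by
    rw [← Finset.sum_add_distrib]
    exact Finset.sum_congr rfl fun d _ => by ring
  rw [e, one_mul, mul_comm D, pow_mul]
  exact (IsUltrametricDist.norm_add_le_max _ _).trans (max_le hdiff hS3)

/-- The shifted series vanishes on the orbit. -/
theorem vanish_shift [Finite ι] (E : Data p h r K ι) {f : MvPowerSeries (Fin r) K}
    (hf : Fixed (iterateFrobenius K p h) f) (hvan : E.Vanish f) {D : ℕ}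
    {ℓ : low E.v_ge (D : ℝ) → K} (hkill : ∀ x ∈ ptsSub E D, ∑ s, x s * ℓ s = 0) :
    E.Vanish (shift E f ℓ) := by
  intro m c R
  obtain ⟨τ, hτ, hτ1, hσ⟩ := E.exists_sigma_le
  have hsum : ∀ s : low E.v_ge (D : ℝ), Summable fun e : Fin r →₀ ℕ =>
      coeff e (slice E f s.1) * e.prod fun j k => E.orbit c R j ^ k := fun s =>
    summable_term ((fixed_slice E hf s.1).integral E.hh) E.v_ge hτ hτ1 (E.orbit_le hτ hτ1 hσ c R)
  have h0 := hkill _ (slices_mem E hf hvan D c R)
  rw [← h0]
  unfold ev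
  simp only [← tsum_mul_right]
  rw [← Summable.tsum_finsetSum fun s _ => ((hsum s).mul_right (ℓ s)).congr fun e => rfl]
  refine tsum_congr fun e => ?_
  show (∑ s, ℓ s * coeff (pair e s.1) (composite E f)) * _ = _
  rw [Finset.sum_mul]
  refine Finset.sum_congr rfl fun s _ => ?_
  show _ = coeff (pair e s.1) (composite E f) * _ * _
  ring

end Vale.Agent.P217.Rigid
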