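/-
P217, block RIGID: the rigidity lemma.
-/
import Vale.Agent.P217.Rigid.Limit
import Vale.Agent.P217.Rigid.Shift
import Vale.Agent.P217.Rigid.Digits

namespace Vale.Agent.P217.Rigid

open MvPowerSeries

variable {p h r : ℕ} [Fact p.Prime] {K : Type} [NormedField K] [CharP K p] [CompleteSpace K]
  [IsUltrametricDist K] {ι : Type}

/-- Total digit sum of an exponent vector. -/
def sdig (p : ℕ) (d : Fin r →₀ ℕ) : ℕ := ∑ l, dsum p (d l)

theorem leading_eq_zero [Finite ι] (E : Data p h r K ι)
    (HX : coeff (Finsupp.single 0 1) E.H = 1) (HY : coeff (Finsupp.single 1 1) E.H = 1)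
    {J : Finset (Fin r)} (hres : ResiduesIndependent p h E.v E.σ E.w J) :
    ∀ (n : ℕ) (f : MvPowerSeries (Fin r) K) (W : ℝ), W < n →
      Fixed (iterateFrobenius K p h) f → E.Vanish f →
      (∀ d, wt E.v d < W → coeff d f = 0) →
      (∀ d, wt E.v d = W → ¬ (d.support ⊆ J) → coeff d f = 0) →
      ∀ d, wt E.v d = W → coeff d f = 0 := by
  classical
  intro n
  induction n with
  | zero =>
    intro f W hW _ _ _ _ d hd
    have := gw_nonneg E.v_ge d
    change 0 ≤ wt E.v d at this
    rw [Nat.cast_zero] at hW
    linarith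
  | succ n ih =>
    intro f W hW hfix hvan hlow hJ d hd
    by_contra hne
    set T := (finite_gw_le E.v_ge W).toFinset.filter
      fun e => wt E.v e = W ∧ coeff e f ≠ 0 with hT
    have hmemT : ∀ e, e ∈ T ↔ wt E.v e = W ∧ coeff e f ≠ 0 := fun e => by
      rw [hT, Finset.mem_filter, Set.Finite.mem_toFinset]
      exact ⟨fun h => h.2, fun h => ⟨le_of_eq h.1, h⟩⟩
    obtain ⟨es, hes, hmax⟩ := T.exists_max_image (sdig p) ⟨d, (hmemT d).2 ⟨hd, hne⟩⟩
    obtain ⟨heW, hef⟩ := (hmemT es).1 hes
    by_cases hes0 : es = 0
    · -- constant term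
      subst hes0
      refine hef ?_
      have h0 := hvan 0 Fin.elim0 Fin.elim0
      have h1 : ev f (E.orbit Fin.elim0 Fin.elim0) = coeff 0 f := by
        rw [ev, tsum_eq_single (0 : Fin r →₀ ℕ)]
        · simp
        · intro e he
          obtain ⟨l, hl⟩ : ∃ l, e l ≠ 0 := by
            by_contra hno
            simp only [not_exists, not_not] at hno
            exact he (Finsupp.ext hno)
          rw [Finsupp.prod_fintype _ _ (fun i => pow_zero _),
            Finset.prod_eq_zero (Finset.mem_univ l) (by simp [Data.orbit, evSum, zero_pow hl]),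
            mul_zero]
      rw [← h1]
      exact h0
    obtain ⟨l0, hl0ne⟩ : ∃ l, es l ≠ 0 := by
      by_contra hno
      simp only [not_exists, not_not] at hno
      exact hes0 (Finsupp.ext hno)
    have hsupp : es.support ⊆ J := by
      by_contra hno
      exact hef (hJ es heW hno)
    have hl0 : l0 ∈ J := hsupp (Finsupp.mem_support_iff.2 hl0ne)
    obtain ⟨b0, q, hq, hbq⟩ :=
      Nat.exists_eq_pow_mul_and_not_dvd hl0ne p (Fact.out : p.Prime).ne_one
    set c := E.v l0 * (p : ℝ) ^ b0 with hc
    have hc1 : 1 ≤ c := one_le_mul_of_one_le_of_one_le (E.v_ge l0)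
      (one_le_pow₀ (by exact_mod_cast (Fact.out : p.Prime).one_le))
    set D := ⌊max W c⌋₊ + 1 with hDdef
    have hD : max W c < (D : ℝ) := by
      rw [hDdef, Nat.cast_add, Nat.cast_one]; exact Nat.lt_floor_add_one _
    obtain ⟨ℓ, hℓfix, hℓ1, hℓhigh, hℓadd, hℓkill⟩ :=
      exists_functional E hres hl0 (b0 := b0) (D := D) ((le_max_right W c).trans_lt hD)
    set g := shift E f ℓ with hg
    have hgcoeff : ∀ e, coeff e g = ∑ s, ℓ s * coeff (pair e s.1) (composite E f) := fun e => rfl
    have hcomp := coeff_composite (v := E.v) E.H0 HX HY E.v_ge hlow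
    have hterm : ∀ e (s : low E.v_ge (D : ℝ)), wt E.v e ≤ W - c →
        ℓ s * coeff (pair e s.1) (composite E f) =
          if wt E.v e = W - c ∧ wt E.v s.1 = c then
            ℓ s * (coeff (e + s.1) f * ∏ l, (((e + s.1) l).choose (s.1 l) : K))
          else 0 := by
      intro e s he
      split_ifs with hcond
      · rw [composite, (hcomp e s.1).2 (by linarith [hcond.1, hcond.2])]
      · rcases lt_or_ge c (wt E.v s.1) with h1 | h1
        · rw [hℓhigh s h1, zero_mul]
        · rw [composite, (hcomp e s.1).1, mul_zero]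
          by_contra h2
          exact hcond ⟨by linarith, by linarith⟩
    have hglow : ∀ e, wt E.v e < W - c → coeff e g = 0 := fun e he => by
      rw [hgcoeff]
      exact Finset.sum_eq_zero fun s _ => by rw [hterm e s he.le, if_neg fun h => he.ne h.1]
    have hgJ : ∀ e, wt E.v e = W - c → ¬ (e.support ⊆ J) → coeff e g = 0 := fun e he hno => by
      rw [hgcoeff]
      refine Finset.sum_eq_zero fun s _ => ?_
      rw [hterm e s he.le]
      split_ifs with hcond
      · have hw : wt E.v (e + s.1) = W := by
          show gw E.v _ = _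
          rw [gw_add]
          show wt E.v e + wt E.v s.1 = W
          linarith [hcond.1, hcond.2]
        rw [hJ _ hw fun hsub => hno fun l hl => hsub ?_, zero_mul, mul_zero]
        rw [Finsupp.mem_support_iff] at hl ⊢
        rw [Finsupp.add_apply]
        omega
      · rfl
    have hzero := ih g (W - c) (by push_cast at hW; linarith) (fixed_shift E hfix hℓfix)
      (vanish_shift E hfix hvan hℓkill) hglow hgJ
    -- the exponent from which the top one is reached
    set s1 : Fin r →₀ ℕ := Finsupp.single l0 (p ^ b0) with hs1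
    have hs1le : s1 ≤ es := by
      rw [hs1, Finsupp.single_le_iff, hbq]
      exact Nat.le_mul_of_pos_right _ (Nat.pos_of_ne_zero fun h => hq (h ▸ dvd_zero p))
    set e := es - s1 with hedef
    have hes_eq : e + s1 = es := tsub_add_cancel_of_le hs1le
    have hs1wt : wt E.v s1 = c := by
      show gw E.v _ = _
      rw [hs1, gw_single, Nat.cast_pow, mul_comm]
    have hewt : wt E.v e = W - c := by
      have h1 := gw_add E.v e s1
      rw [hes_eq] at h1
      change wt E.v es = wt E.v e + wt E.v s1 at h1
      linarith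
    have hsd : sdig p es = sdig p e + 1 := by
      rw [sdig, sdig, ← Finset.add_sum_erase _ _ (Finset.mem_univ l0),
        ← Finset.add_sum_erase _ (fun l => dsum p (e l)) (Finset.mem_univ l0)]
      have h1 : ∑ l ∈ Finset.univ.erase l0, dsum p (es l) =
          ∑ l ∈ Finset.univ.erase l0, dsum p (e l) := by
        refine Finset.sum_congr rfl fun l hl => ?_
        rw [hedef, Finsupp.tsub_apply, hs1, Finsupp.single_eq_of_ne (Finset.ne_of_mem_erase hl),
          Nat.sub_zero]
      have h2 : e l0 = p ^ b0 * (q - 1) := by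
        rw [hedef, Finsupp.tsub_apply, hs1, Finsupp.single_eq_same, hbq, Nat.mul_sub_one]
      rw [h1, h2, hbq, dsum_pow_mul, dsum_pow_mul, dsum_pred hq]
      omega
    have hs1S : s1 ∈ low E.v_ge (D : ℝ) :=
      mem_low.2 (lt_of_eq_of_lt hs1wt ((le_max_right W c).trans_lt hD))
    have hsum := hzero e hewt
    rw [hgcoeff, Finset.sum_eq_single (⟨s1, hs1S⟩ : low E.v_ge (D : ℝ))] at hsum
    · rw [hterm e _ hewt.le, if_pos ⟨hewt, hs1wt⟩, hℓ1 _ rfl, one_mul] at hsum
      dsimp only at hsum
      rw [hes_eq] at hsum
      rcases mul_eq_zero.1 hsum with h1 | h1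
      · exact hef h1
      · rw [Finset.prod_eq_single l0 (fun l _ hl => by
            rw [hs1, Finsupp.single_eq_of_ne hl, Nat.choose_zero_right, Nat.cast_one])
          (fun h => absurd (Finset.mem_univ l0) h), CharP.cast_eq_zero_iff K p, hs1,
          Finsupp.single_eq_same, hbq] at h1
        exact not_dvd_choose_pow_mul hq h1
    · intro s _ hs
      rw [hterm e s hewt.le]
      split_ifs with hcond
      · by_contra hprod
        obtain ⟨hℓne, hfne, hchoose⟩ : ℓ s ≠ 0 ∧ coeff (e + s.1) f ≠ 0 ∧
            ∀ l, ¬ p ∣ ((e + s.1) l).choose (s.1 l) := by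
          refine ⟨fun h => hprod (by rw [h, zero_mul]), fun h => hprod (by rw [h, zero_mul, mul_zero]),
            fun l h => hprod ?_⟩
          rw [Finset.prod_eq_zero (Finset.mem_univ l) ((CharP.cast_eq_zero_iff K p _).2 h),
            mul_zero, mul_zero]
        have hw : wt E.v (e + s.1) = W := by
          show gw E.v _ = _
          rw [gw_add]
          show wt E.v e + wt E.v s.1 = W
          linarith [hcond.2]
        have hadd : sdig p e + sdig p s.1 ≤ sdig p (e + s.1) := by
          rw [sdig, sdig, sdig, ← Finset.sum_add_distrib]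
          exact Finset.sum_le_sum fun l _ => by
            rw [Finsupp.add_apply]; exact dsum_add_of_choose (by simpa using hchoose l)
        have hle := hmax _ ((hmemT _).2 ⟨hw, hfne⟩)
        obtain ⟨l1, hl1⟩ : ∃ l, s.1 l ≠ 0 := by
          by_contra hno
          simp only [not_exists, not_not] at hno
          rw [show s.1 = 0 from Finsupp.ext hno] at hcond
          simp [wt] at hcond
          linarith [hcond.2]
        have hpos : 1 ≤ dsum p (s.1 l1) :=
          Nat.one_le_iff_ne_zero.2 fun h => hl1 (eq_zero_of_dsum h)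
        have hsplit : dsum p (s.1 l1) + ∑ l ∈ Finset.univ.erase l1, dsum p (s.1 l) = sdig p s.1 :=
          Finset.add_sum_erase _ (fun l => dsum p (s.1 l)) (Finset.mem_univ l1)
        have hrest : ∀ l, l ≠ l1 → s.1 l = 0 := fun l hl => by
          refine eq_zero_of_dsum (p := p) ?_
          have : dsum p (s.1 l) ≤ ∑ k ∈ Finset.univ.erase l1, dsum p (s.1 k) :=
            Finset.single_le_sum (f := fun k => dsum p (s.1 k)) (fun _ _ => Nat.zero_le _)
              (Finset.mem_erase.2 ⟨hl, Finset.mem_univ l⟩)
          omega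
        obtain ⟨b, hb⟩ := exists_pow_of_dsum (p := p) (n := s.1 l1) (by omega)
        have hsingle : s.1 = Finsupp.single l1 (p ^ b) := by
          ext l
          by_cases hl : l = l1
          · subst hl; rw [hb, Finsupp.single_eq_same]
          · rw [hrest l hl, Finsupp.single_eq_of_ne hl]
        have hl1J : l1 ∈ J := by
          have hsub : (e + s.1).support ⊆ J := by
            by_contra hno
            exact hfne (hJ _ hw hno)
          refine hsub (Finsupp.mem_support_iff.2 ?_)
          rw [Finsupp.add_apply]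
          omega
        exact hℓne (hℓadd s l1 hl1J b hsingle hcond.2 fun h => hs (Subtype.ext h))
      · rfl
    · intro h
      exact absurd (Finset.mem_univ _) h

end Vale.Agent.P217.Rigid

namespace Vale.Agent.P217

open MvPowerSeries

variable (p : ℕ) [Fact p.Prime]

/-- Block F2 (RIGID). -/
theorem rigid : RigidStatement p := by
  intro K _ _ hultra hchar h hh r H hHfix ι _ v σ w J hv hσ hw hres f hvan W hlow hJ d hd
  haveI := hultra
  haveI := hchar
  by_contra hne
  let E : Rigid.Data p h r K ι :=
    { hh := hh, H := H.toPowerSeries, v := v, σ := σ, w := w, H0 := H.zero_constantCoeff,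
      H_fix := hHfix, v_ge := hv, σ_pos := fun i => (hσ i).1, σ_lt := fun i => (hσ i).2,
      w_le := hw }
  obtain ⟨Φ, hfix, hΦvan, hΦlow, hΦJ, hΦ1⟩ :=
    Rigid.exists_fixed_limit E hvan J hlow hJ hd hne
  have h0 := Rigid.leading_eq_zero E H.lin_coeff_X H.lin_coeff_Y hres (⌊W⌋₊ + 1) Φ W
    (by push_cast; exact Nat.lt_floor_add_one W) hfix hΦvan hΦlow hΦJ d hd
  exact one_ne_zero (hΦ1.symm.trans h0)

end Vale.Agent.P217
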